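import Vale.Agent.P050.R2.H466.Grid

/-!
Log-supermodular kernels on products of probability spaces.
-/

namespace Vale.Agent.P050.R2.H466

open Finset Function MeasureTheory

section

variable {Ω : Type*} [MeasurableSpace Ω] {T : Type*} [Fintype T] (m : T → Measure Ω)
  [∀ t, IsProbabilityMeasure (m t)] {S : Type*} [Fintype S] [DecidableEq S] {C : ℝ}

theorem one_pattern (π : S → T) {G : (S → Ω) → ℝ} (hG : Measurable G) (hC : ∀ z, |G z| ≤ C) :
    (∀ N : ℕ, Integrable (fun ω : T × Fin (N + 1) → Ω =>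
      (avg π G (N + 1) ω - ∫ z, G z ∂(Measure.pi fun s => m (π s))) ^ 2)
      (Measure.pi fun p : T × Fin (N + 1) => m p.1)) ∧
    Filter.Tendsto (fun N : ℕ => ∫ ω, (avg π G (N + 1) ω -
      ∫ z, G z ∂(Measure.pi fun s => m (π s))) ^ 2
      ∂(Measure.pi fun p : T × Fin (N + 1) => m p.1)) Filter.atTop (nhds 0) := by
  refine ⟨fun N => ?_, (tendsto_sq m hG hC π).comp (Filter.tendsto_add_atTop_nat 1)⟩
  have h1 : |∫ z, G z ∂(Measure.pi fun s => m (π s))| ≤ C := abs_integral_le hC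
  refine integrable_of_abs (((measurable_avg hG π _).sub_const _).pow_const 2)
    (c := (C + C) ^ 2) fun ω => ?_
  rw [abs_pow]
  refine pow_le_pow_left₀ (abs_nonneg _) ?_ 2
  exact (abs_sub _ _).trans (add_le_add (abs_avg_le hC π N.succ_pos ω) h1)

end

variable {I J Ω : Type*} [MeasurableSpace Ω] {A B : Type*} [Fintype A] [Fintype B]

theorem measurable_patP {f : (I → Ω) → ℝ} {g : (J → Ω) → ℝ} {W : (I → Ω) → (J → Ω) → ℝ}
    (hf : Measurable f) (hg : Measurable g) (hW : Measurable (uncurry W)) :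
    Measurable (patP f g W) := by
  have h1 : Measurable fun (z : I ⊕ J → Ω) (i : I) => z (Sum.inl i) :=
    measurable_pi_lambda _ fun _ => measurable_pi_apply _
  have h2 : Measurable fun (z : I ⊕ J → Ω) (i : J) => z (Sum.inr i) :=
    measurable_pi_lambda _ fun _ => measurable_pi_apply _
  exact ((hf.comp h1).mul (hg.comp h2)).mul (hW.comp (h1.prodMk h2))

theorem measurable_patZ {f : (I → Ω) → ℝ} {g : (J → Ω) → ℝ} {W : (I → Ω) → (J → Ω) → ℝ}
    (hf : Measurable f) (hg : Measurable g) (hW : Measurable (uncurry W)) (E : Finset (A × B)) :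
    Measurable (patZ E f g W) := by
  have h1 : ∀ a : A, Measurable fun (z : (A × I) ⊕ (B × J) → Ω) (i : I) => z (Sum.inl (a, i)) :=
    fun _ => measurable_pi_lambda _ fun _ => measurable_pi_apply _
  have h2 : ∀ b : B, Measurable fun (z : (A × I) ⊕ (B × J) → Ω) (j : J) => z (Sum.inr (b, j)) :=
    fun _ => measurable_pi_lambda _ fun _ => measurable_pi_apply _
  exact ((Finset.measurable_prod _ fun a _ => hf.comp (h1 a)).mul
    (Finset.measurable_prod _ fun b _ => hg.comp (h2 b))).mul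
    (Finset.measurable_prod _ fun e _ => hW.comp ((h1 e.1).prodMk (h2 e.2)))

omit [MeasurableSpace Ω] in
theorem prod_le_pow {ι : Type*} (s : Finset ι) {f : ι → ℝ} {C : ℝ} (h0 : ∀ i, 0 ≤ f i)
    (hC : ∀ i, f i ≤ C) : 0 ≤ ∏ i ∈ s, f i ∧ ∏ i ∈ s, f i ≤ C ^ s.card :=
  ⟨prod_nonneg fun _ _ => h0 _,
    (prod_le_prod (fun _ _ => h0 _) fun _ _ => hC _).trans (by rw [prod_const])⟩

omit [MeasurableSpace Ω] in
theorem abs_patP {f : (I → Ω) → ℝ} {g : (J → Ω) → ℝ} {W : (I → Ω) → (J → Ω) → ℝ} {C : ℝ}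
    (hf0 : ∀ x, 0 ≤ f x) (hg0 : ∀ y, 0 ≤ g y) (hW0 : ∀ x y, 0 ≤ W x y) (hfC : ∀ x, f x ≤ C)
    (hgC : ∀ y, g y ≤ C) (hWC : ∀ x y, W x y ≤ C) (z : I ⊕ J → Ω) :
    |patP f g W z| ≤ C * C * C := by
  unfold patP
  rw [abs_of_nonneg (mul_nonneg (mul_nonneg (hf0 _) (hg0 _)) (hW0 _ _))]
  have hC : 0 ≤ C := (hf0 fun i => z (Sum.inl i)).trans (hfC _)
  exact mul_le_mul (mul_le_mul (hfC _) (hgC _) (hg0 _) hC) (hWC _ _) (hW0 _ _)
    (mul_nonneg hC hC)

omit [MeasurableSpace Ω] in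
theorem abs_patZ {f : (I → Ω) → ℝ} {g : (J → Ω) → ℝ} {W : (I → Ω) → (J → Ω) → ℝ} {C : ℝ}
    (hf0 : ∀ x, 0 ≤ f x) (hg0 : ∀ y, 0 ≤ g y) (hW0 : ∀ x y, 0 ≤ W x y) (hfC : ∀ x, f x ≤ C)
    (hgC : ∀ y, g y ≤ C) (hWC : ∀ x y, W x y ≤ C) (hC : 0 ≤ C) (E : Finset (A × B))
    (z : (A × I) ⊕ (B × J) → Ω) :
    |patZ E f g W z| ≤ C ^ (univ : Finset A).card * C ^ (univ : Finset B).card * C ^ E.card := by
  unfold patZ
  have h1 := prod_le_pow (univ : Finset A) (f := fun a => f fun i => z (Sum.inl (a, i)))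
    (fun _ => hf0 _) (fun _ => hfC _)
  have h2 := prod_le_pow (univ : Finset B) (f := fun b => g fun j => z (Sum.inr (b, j)))
    (fun _ => hg0 _) (fun _ => hgC _)
  have h3 := prod_le_pow E (f := fun e => W (fun i => z (Sum.inl (e.1, i)))
    fun j => z (Sum.inr (e.2, j))) (fun _ => hW0 _ _) (fun _ => hWC _ _)
  rw [abs_of_nonneg (mul_nonneg (mul_nonneg h1.1 h2.1) h3.1)]
  exact mul_le_mul (mul_le_mul h1.2 h2.2 h2.1 (pow_nonneg hC _)) h3.2 h3.1
    (mul_nonneg (pow_nonneg hC _) (pow_nonneg hC _))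

variable [Fintype I] [Fintype J] [DecidableEq I] [DecidableEq J] [DecidableEq A] [DecidableEq B]
  (m : I → Measure Ω) (n : J → Measure Ω) [∀ i, IsProbabilityMeasure (m i)]
  [∀ j, IsProbabilityMeasure (n j)]

theorem cont_raw {r : I → Ω → ℝ} {s : J → Ω → ℝ} {f : (I → Ω) → ℝ} {g : (J → Ω) → ℝ}
    {W : (I → Ω) → (J → Ω) → ℝ} {C : ℝ} (hfm : Measurable f) (hgm : Measurable g)
    (hWm : Measurable (uncurry W)) (hf0 : ∀ x, 0 ≤ f x) (hg0 : ∀ y, 0 ≤ g y)
    (hW0 : ∀ x y, 0 ≤ W x y) (hfC : ∀ x, f x ≤ C) (hgC : ∀ y, g y ≤ C) (hWC : ∀ x y, W x y ≤ C)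
    (hf : LogSuper r f) (hg : LogSuper s g) (hW : LogSuperKernel r s W) (E : Finset (A × B)) :
    (∫ z, patP f g W z ∂(Measure.pi fun t : I ⊕ J => Sum.elim m n (id t))) ^ E.card *
      (∫ x, f x ∂(Measure.pi m)) ^ Fintype.card A * (∫ y, g y ∂(Measure.pi n)) ^ Fintype.card B ≤
    ((∫ x, f x ∂(Measure.pi m)) * ∫ y, g y ∂(Measure.pi n)) ^ E.card *
      ∫ z, patZ E f g W z ∂(Measure.pi fun t : (A × I) ⊕ (B × J) =>
        Sum.elim m n (Sum.map Prod.snd Prod.snd t)) := by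
  classical
  have hmn : ∀ t, IsProbabilityMeasure (Sum.elim m n t) := by
    rintro (i | j)
    · exact inferInstanceAs (IsProbabilityMeasure (m i))
    · exact inferInstanceAs (IsProbabilityMeasure (n j))
  have hne : Nonempty (I → Ω) := nonempty_of_isProbabilityMeasure (Measure.pi m)
  have hC : 0 ≤ C := (hf0 hne.some).trans (hfC _)
  have o1 := one_pattern (Sum.elim m n) id (measurable_patP hfm hgm hWm)
    (abs_patP hf0 hg0 hW0 hfC hgC hWC)
  have o2 := one_pattern (Sum.elim m n) Sum.inl hfm (C := C)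
    (fun x => by rw [abs_of_nonneg (hf0 x)]; exact hfC x)
  have o3 := one_pattern (Sum.elim m n) Sum.inr hgm (C := C)
    (fun x => by rw [abs_of_nonneg (hg0 x)]; exact hgC x)
  have o4 := one_pattern (Sum.elim m n) (Sum.map Prod.snd Prod.snd)
    (measurable_patZ hfm hgm hWm E) (abs_patZ hf0 hg0 hW0 hfC hgC hWC hC E)
  obtain ⟨ω, hω⟩ := exists_seq
    (fun N => (Measure.pi fun p : (I ⊕ J) × Fin (N + 1) => Sum.elim m n p.1))
    (![fun N => avg id (patP f g W) (N + 1), fun N => avg Sum.inl f (N + 1),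
      fun N => avg Sum.inr g (N + 1),
      fun N => avg (Sum.map Prod.snd Prod.snd) (patZ E f g W) (N + 1)] :
      Fin 4 → ∀ N : ℕ, ((I ⊕ J) × Fin (N + 1) → Ω) → ℝ)
    (![∫ z, patP f g W z ∂(Measure.pi fun t : I ⊕ J => Sum.elim m n (id t)),
      ∫ x, f x ∂(Measure.pi fun i => Sum.elim m n (Sum.inl i)),
      ∫ y, g y ∂(Measure.pi fun j => Sum.elim m n (Sum.inr j)),
      ∫ z, patZ E f g W z ∂(Measure.pi fun t : (A × I) ⊕ (B × J) =>
        Sum.elim m n (Sum.map Prod.snd Prod.snd t))] : Fin 4 → ℝ)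
    (fun j N => by
      fin_cases j
      · exact o1.1 N
      · exact o2.1 N
      · exact o3.1 N
      · exact o4.1 N)
    (fun j => by
      fin_cases j
      · exact o1.2
      · exact o2.2
      · exact o3.2
      · exact o4.2)
  have w1 : Filter.Tendsto (fun N => avg id (patP f g W) (N + 1) (ω N)) Filter.atTop
    (nhds (∫ z, patP f g W z ∂(Measure.pi fun t : I ⊕ J => Sum.elim m n (id t)))) := hω 0
  have w2 : Filter.Tendsto (fun N => avg Sum.inl f (N + 1) (ω N)) Filter.atTop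
    (nhds (∫ x, f x ∂(Measure.pi m))) := hω 1
  have w3 : Filter.Tendsto (fun N => avg Sum.inr g (N + 1) (ω N)) Filter.atTop
    (nhds (∫ y, g y ∂(Measure.pi n))) := hω 2
  have w4 : Filter.Tendsto (fun N => avg (Sum.map Prod.snd Prod.snd) (patZ E f g W) (N + 1) (ω N))
    Filter.atTop (nhds (∫ z, patZ E f g W z ∂(Measure.pi fun t : (A × I) ⊕ (B × J) =>
        Sum.elim m n (Sum.map Prod.snd Prod.snd t)))) := hω 3
  exact le_of_tendsto_of_tendsto'
    (((w1.pow E.card).mul (w2.pow (Fintype.card A))).mul (w3.pow (Fintype.card B)))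
    (((w2.mul w3).pow E.card).mul w4)
    fun N => grid_ineq hf0 hg0 hW0 hf hg hW E N.succ_pos (ω N)

/-! ### conversion of the integrals -/

omit [DecidableEq I] [DecidableEq A] [Fintype J] [DecidableEq J] [DecidableEq B] [Fintype B] in
theorem mp_uncurry : MeasurePreserving (fun (x : A → I → Ω) (p : A × I) => x p.1 p.2)
    (Measure.pi fun _ : A => Measure.pi m) (Measure.pi fun p : A × I => m p.2) := by
  classical
  have hm : Measurable (fun (x : A → I → Ω) (p : A × I) => x p.1 p.2) :=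
    measurable_pi_lambda _ fun p => (measurable_pi_apply p.2).comp (measurable_pi_apply p.1)
  refine ⟨hm, ?_⟩
  symm
  refine Measure.pi_eq fun s hs => ?_
  rw [Measure.map_apply hm (MeasurableSet.univ_pi hs)]
  have hpre : (fun (x : A → I → Ω) (p : A × I) => x p.1 p.2) ⁻¹' Set.univ.pi s =
      Set.univ.pi fun a => Set.univ.pi fun i => s (a, i) := by
    ext x
    simp only [Set.mem_preimage, Set.mem_pi, Set.mem_univ, true_implies]
    exact ⟨fun h a i => h (a, i), fun h p => h p.1 p.2⟩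
  rw [hpre, Measure.pi_pi]
  simp only [Measure.pi_pi]
  rw [Fintype.prod_prod_type]

omit [DecidableEq I] [DecidableEq J] in
theorem int_patP {f : (I → Ω) → ℝ} {g : (J → Ω) → ℝ}
    {W : (I → Ω) → (J → Ω) → ℝ} {C : ℝ} (hfm : Measurable f) (hgm : Measurable g)
    (hWm : Measurable (uncurry W)) (hf0 : ∀ x, 0 ≤ f x) (hg0 : ∀ y, 0 ≤ g y)
    (hW0 : ∀ x y, 0 ≤ W x y) (hfC : ∀ x, f x ≤ C) (hgC : ∀ y, g y ≤ C)
    (hWC : ∀ x y, W x y ≤ C) :
    ∫ z, patP f g W z ∂(Measure.pi fun t : I ⊕ J => Sum.elim m n (id t)) =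
      ∫ x, ∫ y, f x * g y * W x y ∂(Measure.pi n) ∂(Measure.pi m) := by
  have hmn : ∀ t, IsProbabilityMeasure (Sum.elim m n t) := by
    rintro (i | j)
    · exact inferInstanceAs (IsProbabilityMeasure (m i))
    · exact inferInstanceAs (IsProbabilityMeasure (n j))
  have h4 := measurePreserving_sumPiEquivProdPi (X := fun _ : I ⊕ J => Ω)
      (fun t : I ⊕ J => Sum.elim m n t)
  have hm : Measurable fun p : (I → Ω) × (J → Ω) => f p.1 * g p.2 * W p.1 p.2 :=
    ((hfm.comp measurable_fst).mul (hgm.comp measurable_snd)).mul hWm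
  have h5 := mp_integral h4 hm
  have h6 : ∫ z, patP f g W z ∂(Measure.pi fun t : I ⊕ J => Sum.elim m n (id t)) =
      ∫ p : (I → Ω) × (J → Ω), f p.1 * g p.2 * W p.1 p.2
        ∂((Measure.pi m).prod (Measure.pi n)) := h5
  rw [h6, integral_prod]
  refine integrable_of_abs hm (c := C * C * C) fun p => ?_
  rw [abs_of_nonneg (mul_nonneg (mul_nonneg (hf0 _) (hg0 _)) (hW0 _ _))]
  have hC : 0 ≤ C := (hf0 p.1).trans (hfC _)
  exact mul_le_mul (mul_le_mul (hfC _) (hgC _) (hg0 _) hC) (hWC _ _) (hW0 _ _)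
    (mul_nonneg hC hC)

omit [DecidableEq I] [DecidableEq J] [DecidableEq A] [DecidableEq B] in
theorem int_patZ {f : (I → Ω) → ℝ} {g : (J → Ω) → ℝ}
    {W : (I → Ω) → (J → Ω) → ℝ} {C : ℝ} (hfm : Measurable f) (hgm : Measurable g)
    (hWm : Measurable (uncurry W)) (hf0 : ∀ x, 0 ≤ f x) (hg0 : ∀ y, 0 ≤ g y)
    (hW0 : ∀ x y, 0 ≤ W x y) (hfC : ∀ x, f x ≤ C) (hgC : ∀ y, g y ≤ C)
    (hWC : ∀ x y, W x y ≤ C) (E : Finset (A × B)) :
    ∫ z, patZ E f g W z ∂(Measure.pi fun t : (A × I) ⊕ (B × J) =>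
        Sum.elim m n (Sum.map Prod.snd Prod.snd t)) =
      ∫ x : A → I → Ω, ∫ y : B → J → Ω, (∏ a, f (x a)) * (∏ b, g (y b)) *
        ∏ e ∈ E, W (x e.1) (y e.2) ∂(Measure.pi fun _ : B => Measure.pi n)
        ∂(Measure.pi fun _ : A => Measure.pi m) := by
  have hmn : ∀ t : (A × I) ⊕ (B × J),
      IsProbabilityMeasure (Sum.elim m n (Sum.map Prod.snd Prod.snd t)) := by
    rintro (p | p)
    · exact inferInstanceAs (IsProbabilityMeasure (m p.2))
    · exact inferInstanceAs (IsProbabilityMeasure (n p.2))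
  have hne : Nonempty (I → Ω) := nonempty_of_isProbabilityMeasure (Measure.pi m)
  have hC : 0 ≤ C := (hf0 hne.some).trans (hfC _)
  have h4 := measurePreserving_sumPiEquivProdPi (X := fun _ : (A × I) ⊕ (B × J) => Ω)
      (fun t : (A × I) ⊕ (B × J) => Sum.elim m n (Sum.map Prod.snd Prod.snd t))
  have h7 : MeasurePreserving
      (fun q : (A → I → Ω) × (B → J → Ω) =>
        (Prod.map (fun (x : A → I → Ω) (p : A × I) => x p.1 p.2)
          (fun (y : B → J → Ω) (p : B × J) => y p.1 p.2)) q)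
      ((Measure.pi fun _ : A => Measure.pi m).prod (Measure.pi fun _ : B => Measure.pi n))
      ((Measure.pi fun p : A × I => m p.2).prod (Measure.pi fun p : B × J => n p.2)) :=
    (mp_uncurry m).prod (mp_uncurry n)
  have hm2 : Measurable fun q : (A × I → Ω) × (B × J → Ω) =>
      patZ E f g W (Sum.elim q.1 q.2) := by
    refine (measurable_patZ hfm hgm hWm E).comp (measurable_pi_lambda _ ?_)
    rintro (p | p)
    · exact (measurable_pi_apply p).comp measurable_fst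
    · exact (measurable_pi_apply p).comp measurable_snd
  have h5 := mp_integral h4 hm2
  have h6 := mp_integral h7 hm2
  have h8 : ∫ z, patZ E f g W z ∂(Measure.pi fun t : (A × I) ⊕ (B × J) =>
        Sum.elim m n (Sum.map Prod.snd Prod.snd t)) =
      ∫ q : (A × I → Ω) × (B × J → Ω), patZ E f g W (Sum.elim q.1 q.2)
        ∂((Measure.pi fun p : A × I => m p.2).prod (Measure.pi fun p : B × J => n p.2)) := h5
  rw [h8, ← h6]
  have q1 : ∀ a : A, Measurable fun q : (A → I → Ω) × (B → J → Ω) => q.1 a := fun a =>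
    (measurable_pi_apply a).comp measurable_fst
  have q2 : ∀ b : B, Measurable fun q : (A → I → Ω) × (B → J → Ω) => q.2 b := fun b =>
    (measurable_pi_apply b).comp measurable_snd
  have q3 : ∀ e : A × B, Measurable fun q : (A → I → Ω) × (B → J → Ω) =>
      W (q.1 e.1) (q.2 e.2) := fun e => hWm.comp ((q1 e.1).prodMk (q2 e.2))
  have hm3 : Measurable fun q : (A → I → Ω) × (B → J → Ω) =>
      (∏ a, f (q.1 a)) * (∏ b, g (q.2 b)) * ∏ e ∈ E, W (q.1 e.1) (q.2 e.2) :=
    ((Finset.measurable_prod _ fun a _ => hfm.comp (q1 a)).mul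
      (Finset.measurable_prod _ fun b _ => hgm.comp (q2 b))).mul
      (Finset.measurable_prod _ fun e _ => q3 e)
  have h9 : ∫ q : (A → I → Ω) × (B → J → Ω), patZ E f g W
      (Sum.elim (Prod.map (fun (x : A → I → Ω) (p : A × I) => x p.1 p.2)
          (fun (y : B → J → Ω) (p : B × J) => y p.1 p.2) q).1
          (Prod.map (fun (x : A → I → Ω) (p : A × I) => x p.1 p.2)
          (fun (y : B → J → Ω) (p : B × J) => y p.1 p.2) q).2)
      ∂((Measure.pi fun _ : A => Measure.pi m).prod (Measure.pi fun _ : B => Measure.pi n)) =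
      ∫ q : (A → I → Ω) × (B → J → Ω), (∏ a, f (q.1 a)) * (∏ b, g (q.2 b)) *
        ∏ e ∈ E, W (q.1 e.1) (q.2 e.2)
      ∂((Measure.pi fun _ : A => Measure.pi m).prod (Measure.pi fun _ : B => Measure.pi n)) := rfl
  rw [h9, integral_prod]
  refine integrable_of_abs hm3 (c := C ^ (univ : Finset A).card * C ^ (univ : Finset B).card *
    C ^ E.card) fun q => ?_
  exact abs_patZ hf0 hg0 hW0 hfC hgC hWC hC E
    (Sum.elim (fun p : A × I => q.1 p.1 p.2) (fun p : B × J => q.2 p.1 p.2))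

end Vale.Agent.P050.R2.H466
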