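import Vale.Agent.P050.R2.H466.Major

/-!
The cover inequality for log-supermodular functions of bits.
-/

namespace Vale.Agent.P050.R2.H466

open Finset

/-- log-supermodular -/
def LSM {α : Type*} [Lattice α] (f : α → ℝ) : Prop :=
  ∀ a b, f a * f b ≤ f (a ⊓ b) * f (a ⊔ b)

/-- the `q`-th largest of a family of bit vectors with column sums `c` -/
def lev {J : Type*} (c : J → ℕ) (q : ℕ) : J → Bool := fun j => decide (q < c j)

theorem dec_or (x : Bool) (m k : ℕ) :
    ((x && decide (m ≤ k)) || decide (m < k)) = decide (m < k + x.toNat) := by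
  cases x
  · rw [Bool.false_and, Bool.false_or]; rfl
  · rw [Bool.true_and, ← Bool.decide_or]
    exact decide_eq_decide.2 (by rw [Bool.toNat_true]; omega)

theorem dec_and (x : Bool) (m k : ℕ) (h : k ≤ m) :
    (x && decide (m ≤ k)) = decide (m < k + x.toNat) := by
  cases x
  · rw [Bool.false_and, eq_comm, decide_eq_false_iff_not, Bool.toNat_false]; omega
  · rw [Bool.true_and]
    exact decide_eq_decide.2 (by rw [Bool.toNat_true]; omega)

/-- inserting one vector into a sorted chain -/
theorem insert_step {J : Type*} {P : (J → Bool) → ℝ} (h0 : ∀ x, 0 ≤ P x) (h : LSM P)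
    (b : J → Bool) (c : J → ℕ) (m : ℕ) :
    P b * ∏ q ∈ range m, P (lev c q) ≤
      (∏ q ∈ range m, P (lev (fun j => c j + (b j).toNat) q)) *
        P (fun j => b j && decide (m ≤ c j)) := by
  induction m with
  | zero => simp
  | succ m ih =>
    rw [prod_range_succ, prod_range_succ, ← mul_assoc]
    have h1 := h (fun j => b j && decide (m ≤ c j)) (lev c m)
    have e1 : (fun j => b j && decide (m ≤ c j)) ⊓ lev c m =
        fun j => b j && decide (m + 1 ≤ c j) := by
      funext j
      have hx : ∀ x y : Bool, x ⊓ y = (x && y) := fun x y => by cases x <;> cases y <;> rfl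
      simp only [Pi.inf_apply, lev, hx]
      rcases Bool.eq_false_or_eq_true (b j) with hb | hb
      · rw [hb, Bool.true_and, Bool.true_and, ← Bool.decide_and]
        exact decide_eq_decide.2 (by omega)
      · rw [hb, Bool.false_and, Bool.false_and, Bool.false_and]
    have e2 : (fun j => b j && decide (m ≤ c j)) ⊔ lev c m =
        lev (fun j => c j + (b j).toNat) m := by
      funext j
      have hx : ∀ x y : Bool, x ⊔ y = (x || y) := fun x y => by cases x <;> cases y <;> rfl
      simp only [Pi.sup_apply, lev, hx]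
      exact dec_or _ _ _
    rw [e1, e2] at h1
    have h2 := mul_le_mul_of_nonneg_right ih (h0 (lev c m))
    have h3 : 0 ≤ ∏ q ∈ range m, P (lev (fun j => c j + (b j).toNat) q) :=
      prod_nonneg fun _ _ => h0 _
    have h4 := mul_le_mul_of_nonneg_left h1 h3
    calc P b * (∏ q ∈ range m, P (lev c q)) * P (lev c m)
        ≤ (∏ q ∈ range m, P (lev (fun j => c j + (b j).toNat) q)) *
            P (fun j => b j && decide (m ≤ c j)) * P (lev c m) := h2
      _ = (∏ q ∈ range m, P (lev (fun j => c j + (b j).toNat) q)) *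
            (P (fun j => b j && decide (m ≤ c j)) * P (lev c m)) := by ring
      _ ≤ _ := h4
      _ = _ := by ring

theorem insert_chain {J : Type*} {P : (J → Bool) → ℝ} (h0 : ∀ x, 0 ≤ P x) (h : LSM P)
    (b : J → Bool) (c : J → ℕ) (m : ℕ) (hc : ∀ j, c j ≤ m) :
    P b * ∏ q ∈ range m, P (lev c q) ≤
      ∏ q ∈ range (m + 1), P (lev (fun j => c j + (b j).toNat) q) := by
  refine (insert_step h0 h b c m).trans (le_of_eq ?_)
  rw [prod_range_succ]
  congr 2
  funext j
  simp only [lev]
  exact dec_and _ _ _ (hc j)

/-- sorting a family of bit vectors increases the product of a log-supermodular function -/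
theorem sorted_prod {J ι : Type*} {P : (J → Bool) → ℝ} (h0 : ∀ x, 0 ≤ P x) (h : LSM P)
    (B : Finset ι) (b : ι → J → Bool) :
    ∏ i ∈ B, P (b i) ≤
      ∏ q ∈ range B.card, P (lev (fun j => (B.filter fun i => b i j = true).card) q) := by
  classical
  induction B using Finset.induction_on with
  | empty => simp
  | insert i s hi ih =>
    rw [prod_insert hi, card_insert_of_notMem hi]
    refine (mul_le_mul_of_nonneg_left ih (h0 _)).trans ?_
    refine (insert_chain h0 h (b i) _ _ fun j => card_filter_le _ _).trans (le_of_eq ?_)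
    refine prod_congr rfl fun q _ => ?_
    congr 2
    funext j
    rw [filter_insert]
    cases hb : b i j
    · simp
    · rw [if_pos rfl, card_insert_of_notMem fun h => hi (mem_filter.1 h).1]
      simp

/-- number of ones -/
def ones {K : ℕ} (b : Fin K → Bool) : ℕ := (univ.filter fun w => b w = true).card

/-- a permutation that sorts in decreasing order -/
theorem exists_sort {K : ℕ} (c : Fin K → ℕ) : ∃ π : Equiv.Perm (Fin K), Antitone (c ∘ π) := by
  refine ⟨Tuple.sort (fun i => OrderDual.toDual (c i)), ?_⟩
  have := Tuple.monotone_sort (fun i => OrderDual.toDual (c i))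
  intro i j hij
  exact this hij

theorem lt_ones_iff {K : ℕ} {c : Fin K → ℕ} {π : Equiv.Perm (Fin K)} (h : Antitone (c ∘ π))
    (q : ℕ) (t : Fin K) : (t : ℕ) < ones (lev c q) ↔ q < c (π t) := by
  have e : ones (lev c q) = (univ.filter fun w : Fin K => q < c (π w)).card := by
    unfold ones
    refine (card_bij (fun w _ => π w) ?_ ?_ ?_).symm
    · intro w hw
      simp only [mem_filter, mem_univ, true_and, lev, decide_eq_true_eq] at hw ⊢
      exact hw
    · intro a _ b _ hab
      exact π.injective hab
    · intro w hw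
      simp only [mem_filter, mem_univ, true_and, lev, decide_eq_true_eq] at hw
      exact ⟨π.symm w, by simpa using hw, by simp⟩
  rw [e]
  constructor
  · intro ht
    by_contra hq
    have hsub : (univ.filter fun w : Fin K => q < c (π w)) ⊆ univ.filter fun w => w < t := by
      intro w hw
      simp only [mem_filter, mem_univ, true_and] at hw ⊢
      by_contra hwt
      exact hq (hw.trans_le (h (not_lt.1 hwt)))
    have h1 := card_le_card hsub
    have h2 : (univ.filter fun w : Fin K => w < t).card = t := by
      rw [Finset.filter_gt_eq_Iio]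
      exact Fin.card_Iio t
    omega
  · intro hq
    have hsub : (univ.filter fun w : Fin K => w ≤ t) ⊆
        univ.filter fun w : Fin K => q < c (π w) := by
      intro w hw
      simp only [mem_filter, mem_univ, true_and] at hw ⊢
      exact hq.trans_le (h hw)
    have h1 := card_le_card hsub
    have h2 : (univ.filter fun w : Fin K => w ≤ t).card = t + 1 := by
      rw [Finset.filter_ge_eq_Iic]
      exact Fin.card_Iic t
    omega

theorem prod_bool {ι : Type*} (S : Finset ι) (φ : ι → Bool) (g : Bool → ℝ) :
    ∏ i ∈ S, g (φ i) = g true ^ (S.filter fun i => φ i = true).card *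
      g false ^ (S.card - (S.filter fun i => φ i = true).card) := by
  classical
  rw [← prod_filter_mul_prod_filter_not S (fun i => φ i = true) (fun i => g (φ i))]
  have h1 : ∏ i ∈ S.filter (fun i => φ i = true), g (φ i) =
      g true ^ (S.filter fun i => φ i = true).card := by
    rw [← prod_const]
    exact prod_congr rfl fun i hi => by rw [(mem_filter.1 hi).2]
  have h2 : ∏ i ∈ S.filter (fun i => ¬ φ i = true), g (φ i) =
      g false ^ (S.filter fun i => ¬ φ i = true).card := by
    rw [← prod_const]
    refine prod_congr rfl fun i hi => ?_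
    have := (mem_filter.1 hi).2
    rw [Bool.not_eq_true] at this
    rw [this]
  rw [h1, h2]
  congr 2
  have := card_filter_add_card_filter_not (s := S) (fun i => φ i = true)
  omega

/-- the basic step: `2 ^ K` terms against `2 ^ K` terms -/
theorem column_step {K : ℕ} (P : (Fin K → Bool) → ℝ) (h0 : ∀ b, 0 ≤ P b) (h : LSM P)
    (g : Fin K → Bool → ℝ) (hg : ∀ t β, 0 ≤ g t β)
    (hPg : ∀ b, P b ≤ ∏ t : Fin K, g t (decide ((t : ℕ) < ones b))) :
    ∑ b, P b ≤ ∏ t : Fin K, ∑ β : Bool, g t β := by
  classical
  have e1 : ∏ t : Fin K, ∑ β : Bool, g t β = ∑ e : Fin K → Bool, ∏ t, g t (e t) := by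
    rw [prod_univ_sum, Fintype.piFinset_univ]
  rw [e1]
  refine sum_le_of_majorised P (fun e => ∏ t, g t (e t)) h0
    (fun e => prod_nonneg fun _ _ => hg _ _) fun B => ?_
  set c : Fin K → ℕ := fun w => (B.filter fun b => b w = true).card with hc
  obtain ⟨π, hπ⟩ := exists_sort c
  have hinj : Function.Injective fun b : Fin K → Bool => b ∘ π := fun a b hab =>
    π.surjective.injective_comp_right hab
  refine ⟨B.image fun b => b ∘ π, card_image_of_injective _ hinj, ?_⟩
  rw [prod_image fun a _ b _ hab => hinj hab]
  have s1 := sorted_prod h0 h B (fun b => b)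
  refine s1.trans ?_
  have s2 : ∏ q ∈ range B.card, P (lev c q) ≤
      ∏ q ∈ range B.card, ∏ t : Fin K, g t (decide ((t : ℕ) < ones (lev c q))) :=
    prod_le_prod (fun _ _ => h0 _) fun q _ => hPg _
  refine s2.trans (le_of_eq ?_)
  rw [prod_comm, prod_comm (s := B)]
  refine prod_congr rfl fun t _ => ?_
  rw [prod_bool (range B.card) (fun q => decide ((t : ℕ) < ones (lev c q))) (g t),
    prod_bool B (fun b => (b ∘ π) t) (g t)]
  have e2 : ((range B.card).filter fun q => decide ((t : ℕ) < ones (lev c q)) = true).card =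
      (B.filter fun b => (b ∘ π) t = true).card := by
    have e3 : ((range B.card).filter fun q => decide ((t : ℕ) < ones (lev c q)) = true) =
        range (c (π t)) := by
      ext q
      simp only [mem_filter, mem_range, decide_eq_true_eq]
      rw [lt_ones_iff hπ]
      constructor
      · exact fun h => h.2
      · exact fun h => ⟨h.trans_le (card_filter_le _ _), h⟩
    rw [e3, card_range]
    rfl
  rw [e2, card_range]

/-- four functions for one more coordinate -/
theorem LSM.marginal {α β : Type*} [Lattice α] [DistribLattice β] [Fintype β] {F : β → α → ℝ}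
    (h0 : ∀ b a, 0 ≤ F b a) (h : ∀ b a b' a', F b a * F b' a' ≤ F (b ⊓ b') (a ⊓ a') *
      F (b ⊔ b') (a ⊔ a')) : LSM (fun a => ∑ b, F b a) := by
  intro a a'
  exact four_functions_theorem_univ (fun b => F b a) (fun b => F b a') (fun b => F b (a ⊓ a'))
    (fun b => F b (a ⊔ a')) (fun _ => h0 _ _) (fun _ => h0 _ _) (fun _ => h0 _ _)
    (fun _ => h0 _ _) fun b b' => h b a b' a'

theorem cons_inf {n : ℕ} {β : Type*} [Lattice β] (b b' : β) (a a' : Fin n → β) :
    (Fin.cons b a : Fin (n + 1) → β) ⊓ Fin.cons b' a' = Fin.cons (b ⊓ b') (a ⊓ a') := by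
  funext i
  refine Fin.cases ?_ (fun j => ?_) i <;> simp

theorem cons_sup {n : ℕ} {β : Type*} [Lattice β] (b b' : β) (a a' : Fin n → β) :
    (Fin.cons b a : Fin (n + 1) → β) ⊔ Fin.cons b' a' = Fin.cons (b ⊔ b') (a ⊔ a') := by
  funext i
  refine Fin.cases ?_ (fun j => ?_) i <;> simp

/-- the sorted bound -/
def Dom {N : Type*} {K : ℕ} (F : (N → Fin K → Bool) → ℝ) (f : (N → Bool) → ℝ) : Prop :=
  ∀ a, F a ≤ ∏ t : Fin K, f fun n => decide ((t : ℕ) < ones (a n))

theorem cover_fin (K n : ℕ) (F : (Fin n → Fin K → Bool) → ℝ) (f : (Fin n → Bool) → ℝ)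
    (hF0 : ∀ a, 0 ≤ F a) (hf0 : ∀ x, 0 ≤ f x) (hF : LSM F) (hf : LSM f) (hd : Dom F f) :
    ∑ a, F a ≤ (∑ x, f x) ^ K := by
  classical
  induction n with
  | zero =>
    rw [Fintype.sum_unique, Fintype.sum_unique]
    refine (hd _).trans (le_of_eq ?_)
    rw [prod_congr rfl fun t _ => congrArg f (Subsingleton.elim _ default), prod_const,
      card_univ, Fintype.card_fin]
    exact congrArg (fun x => f x ^ K) (Subsingleton.elim _ _)
  | succ n ih =>
    have hsum : ∀ {β : Type} [Fintype β] (G : (Fin (n + 1) → β) → ℝ),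
        ∑ a, G a = ∑ a' : Fin n → β, ∑ b : β, G (Fin.cons b a') := by
      intro β _ G
      rw [← (Fin.consEquiv fun _ : Fin (n + 1) => β).sum_comp G, Fintype.sum_prod_type,
        sum_comm]
      rfl
    rw [hsum F, hsum f]
    refine ih (fun a' => ∑ b, F (Fin.cons b a')) (fun x' => ∑ β, f (Fin.cons β x'))
      (fun _ => sum_nonneg fun _ _ => hF0 _) (fun _ => sum_nonneg fun _ _ => hf0 _) ?_ ?_ ?_
    · refine LSM.marginal (F := fun b a' => F (Fin.cons b a')) (fun _ _ => hF0 _) ?_
      intro b a b' a'
      have := hF (Fin.cons b a) (Fin.cons b' a')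
      rwa [cons_inf, cons_sup] at this
    · refine LSM.marginal (F := fun b a' => f (Fin.cons b a')) (fun _ _ => hf0 _) ?_
      intro b a b' a'
      have := hf (Fin.cons b a) (Fin.cons b' a')
      rwa [cons_inf, cons_sup] at this
    · intro a'
      refine column_step (fun b => F (Fin.cons b a')) (fun _ => hF0 _) ?_
        (fun t β => f (Fin.cons β fun n => decide ((t : ℕ) < ones (a' n)))) (fun _ _ => hf0 _) ?_
      · intro b b'
        have := hF (Fin.cons b a') (Fin.cons b' a')
        rwa [cons_inf, cons_sup, inf_idem, sup_idem] at this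
      · intro b
        refine (hd _).trans (le_of_eq ?_)
        refine prod_congr rfl fun t _ => ?_
        congr 1
        funext i
        refine Fin.cases ?_ (fun j => ?_) i <;> simp

end Vale.Agent.P050.R2.H466
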