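import Vale.Agent.P050.H753.Comb

/-!
Log-supermodular targets and random lifts: the definitions used in the statements.
-/

namespace Vale.Agent.P050.R2.H466

open Finset Function MeasureTheory Vale.Agent.P050 Vale.Agent.P050.H392 Vale.Agent.P050.H753

section

variable {I J Ω : Type*}

/-- `u`, `v` are obtained from `x`, `x'` by sorting the two values in each coordinate according
to the functions `r` -/
def Sorted (r : I → Ω → ℝ) (x x' u v : I → Ω) : Prop :=
  ∀ i, r i (u i) ≤ r i (v i) ∧ ((u i = x i ∧ v i = x' i) ∨ (u i = x' i ∧ v i = x i))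

/-- log-supermodular functions -/
def LogSuper (r : I → Ω → ℝ) (f : (I → Ω) → ℝ) : Prop :=
  ∀ x x' u v, Sorted r x x' u v → f x * f x' ≤ f u * f v

/-- log-supermodular kernels -/
def LogSuperKernel (r : I → Ω → ℝ) (s : J → Ω → ℝ) (W : (I → Ω) → (J → Ω) → ℝ) : Prop :=
  ∀ x x' u v, Sorted r x x' u v → ∀ y y' w z, Sorted s y y' w z →
    W x y * W x' y' ≤ W u w * W v z

variable [MeasurableSpace Ω] [Fintype I]

/-- probability measures on `Ω ^ I` with a bounded log-supermodular density with respect to a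
product of probability measures -/
def LogSuperMeasure (r : I → Ω → ℝ) (μ : Measure (I → Ω)) : Prop :=
  ∃ (m : I → Measure Ω) (f : (I → Ω) → ℝ) (C : ℝ), (∀ i, IsProbabilityMeasure (m i)) ∧
    Measurable f ∧ (∀ x, 0 ≤ f x) ∧ (∀ x, f x ≤ C) ∧ LogSuper r f ∧
    μ = (Measure.pi m).withDensity fun x => ENNReal.ofReal (f x)

end

/-- the `K`-fold cover (`K`-lift) of the bipartite graph `H` given by the permutations `σ (u, v)`:
over the edge `uv` with `side u = true`, `side v = false` the vertex `(u, i)` is adjacent to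
`(v, σ (u, v) i)` -/
def liftGraph {V : Type} (H : SimpleGraph V) (side : V → Bool) (K : ℕ)
    (σ : V × V → Equiv.Perm (Fin K)) : SimpleGraph (V × Fin K) where
  Adj p q := H.Adj p.1 q.1 ∧
    ((side p.1 = true ∧ σ (p.1, q.1) p.2 = q.2) ∨ (side q.1 = true ∧ σ (q.1, p.1) q.2 = p.2))
  symm := ⟨fun _ _ h => ⟨h.1.symm, h.2.symm⟩⟩
  loopless := ⟨fun _ h => H.loopless.irrefl _ h.1⟩

/-- Sidorenko's inequality for every bipartite graph `H` and: (1) kernels on the product of two
finite distributive lattices, with log-supermodular kernel and weights; (2) bounded measurable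
kernels on `Ω^I × Ω^J` that are log-supermodular for the coordinatewise orders given by functions
`r`, `s`, and measures with log-supermodular densities; (3) symmetric such kernels, `H` any
bipartite graph, the orders for the two variables may be different; (4) finite bipartite graphs
`G` with adjacency given by a sublattice of a product of two distributive lattices. -/
def LatticeTargets : Prop :=
  (∀ (A B L M : Type) [Fintype A] [Fintype B] [DecidableEq A] [DecidableEq B]
    [DistribLattice L] [Fintype L] [DistribLattice M] [Fintype M] (E : Finset (A × B))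
    (μ : L → ℝ) (ν : M → ℝ) (W : L → M → ℝ),
    (∀ x, 0 ≤ μ x) → (∀ y, 0 ≤ ν y) → (∀ x y, 0 ≤ W x y) → ∑ x, μ x = 1 → ∑ y, ν y = 1 →
    (∀ x x', μ x * μ x' ≤ μ (x ⊓ x') * μ (x ⊔ x')) →
    (∀ y y', ν y * ν y' ≤ ν (y ⊓ y') * ν (y ⊔ y')) →
    (∀ x y x' y', W x y * W x' y' ≤ W (x ⊓ x') (y ⊓ y') * W (x ⊔ x') (y ⊔ y')) →
    (∑ x, ∑ y, μ x * ν y * W x y) ^ E.card ≤
      ∑ φ : A → L, ∑ ψ : B → M, (∏ a, μ (φ a)) * (∏ b, ν (ψ b)) * ∏ e ∈ E, W (φ e.1) (ψ e.2)) ∧
  (∀ (A B I J Ω : Type) [Fintype A] [Fintype B] [Fintype I] [Fintype J] [MeasurableSpace Ω]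
    (r : I → Ω → ℝ) (s : J → Ω → ℝ) (μ : Measure (I → Ω)) (ν : Measure (J → Ω))
    [IsProbabilityMeasure μ] [IsProbabilityMeasure ν] (E : Finset (A × B))
    (W : (I → Ω) → (J → Ω) → ℝ) (C : ℝ),
    LogSuperMeasure r μ → LogSuperMeasure s ν → Measurable (uncurry W) →
    (∀ x y, 0 ≤ W x y) → (∀ x y, W x y ≤ C) → LogSuperKernel r s W →
    (∫ x, ∫ y, W x y ∂ν ∂μ) ^ E.card ≤ bipDensity μ ν E W) ∧
  (∀ (V I Ω : Type) [Fintype V] [DecidableEq V] [Fintype I] [MeasurableSpace Ω]
    (H : SimpleGraph V) [DecidableRel H.Adj] (r s : I → Ω → ℝ) (μ : Measure (I → Ω))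
    [IsProbabilityMeasure μ] (W : (I → Ω) → (I → Ω) → ℝ) (hW : ∀ x y, W x y = W y x) (C : ℝ),
    H.IsBipartite → LogSuperMeasure r μ → LogSuperMeasure s μ → Measurable (uncurry W) →
    (∀ x y, 0 ≤ W x y) → (∀ x y, W x y ≤ C) → LogSuperKernel r s W →
    (∫ x, ∫ y, W x y ∂μ ∂μ) ^ H.edgeFinset.card ≤ kernelDensity μ H W hW) ∧
  (∀ (U L M : Type) [Finite U] [Nonempty U] [DistribLattice L] [Finite L] [DistribLattice M]
    [Finite M] (G : SimpleGraph U) (c : U → L ⊕ M) (R : Sublattice (L × M)),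
    (∀ u v, G.Adj u v ↔ ∃ p ∈ R, (c u = Sum.inl p.1 ∧ c v = Sum.inr p.2) ∨
      (c v = Sum.inl p.1 ∧ c u = Sum.inr p.2)) →
    (∀ x x' : L, Nat.card {u // c u = Sum.inl x} * Nat.card {u // c u = Sum.inl x'} ≤
      Nat.card {u // c u = Sum.inl (x ⊓ x')} * Nat.card {u // c u = Sum.inl (x ⊔ x')}) →
    (∀ y y' : M, Nat.card {u // c u = Sum.inr y} * Nat.card {u // c u = Sum.inr y'} ≤
      Nat.card {u // c u = Sum.inr (y ⊓ y')} * Nat.card {u // c u = Sum.inr (y ⊔ y')}) →
    SidorenkoAgainst G)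

/-- Every bipartite graph `H`, every graph `G`: the average of the densities of the `K`-lifts of
`H`, that is of `homDensity (liftGraph H side K σ) G` over uniformly random permutations `σ`, is
at least `p(G) ^ (K e(H))`, up to a factor which is polynomial in `K`. -/
def RandomLifts : Prop :=
  ∀ (V U : Type) [Fintype V] [DecidableEq V] [Finite U] [Nonempty U] (H : SimpleGraph V)
    (side : V → Bool) (G : SimpleGraph U) (K : ℕ), (∀ u v, H.Adj u v → side u ≠ side v) →
    edgeDensity G ^ (K * Nat.card H.edgeSet) *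
        (Fintype.card (V × V → Equiv.Perm (Fin K)) : ℝ) ≤
      ((K : ℝ) + 1) ^ (2 * Nat.card U * Nat.card H.edgeSet) *
        ∑ σ : V × V → Equiv.Perm (Fin K), homDensity (liftGraph H side K σ) G

end Vale.Agent.P050.R2.H466
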