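import Vale.Agent.P050.R2.H466.Types
import Vale.Agent.P050.R2.H466.LDefs
import Vale.Agent.P050.Ultra.Join

/-!
The average over random lifts of a bipartite graph.
-/

namespace Vale.Agent.P050.R2.H466

open Finset Function Vale.Agent.P050 Vale.Agent.P050.H392 Vale.Agent.P050.H753
  Vale.Agent.P050.Ultra

section

variable {V U : Type} [Fintype V] [DecidableEq V] [Fintype U] (H : SimpleGraph V)
  [DecidableRel H.Adj] (side : V → Bool)

/-- the edges, from `true` to `false` -/
def sideE : Finset (V × V) := univ.filter fun e => H.Adj e.1 e.2 ∧ side e.1 = true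

/-- the level function of the lift -/
def lev2 {K : ℕ} (p : V × Fin K) : ℕ := if side p.1 = true then 0 else 1

omit [Fintype V] [DecidableEq V] [DecidableRel H.Adj] in
theorem lift_level (hs : ∀ u v, H.Adj u v → side u ≠ side v) {K : ℕ}
    (σ : V × V → Equiv.Perm (Fin K)) (p q : V × Fin K) (h : (liftGraph H side K σ).Adj p q) :
    lev2 side p ≠ lev2 side q := by
  have h1 := hs _ _ h.1
  unfold lev2
  rcases hp : side p.1 <;> rcases hq : side q.1 <;> simp_all

theorem lift_orient (hs : ∀ u v, H.Adj u v → side u ≠ side v) {K : ℕ}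
    (σ : V × V → Equiv.Perm (Fin K)) [DecidableRel (liftGraph H side K σ).Adj] :
    orient (liftGraph H side K σ) (lev2 side) =
      (sideE H side ×ˢ (univ : Finset (Fin K))).image
        fun r => ((r.1.1, r.2), (r.1.2, σ r.1 r.2)) := by
  ext ⟨p, q⟩
  simp only [orient, mem_filter, mem_univ, true_and, mem_image, mem_product, and_true, sideE]
  constructor
  · rintro ⟨h, hlt⟩
    have h1 := hs _ _ h.1
    have hp : side p.1 = true := by
      unfold lev2 at hlt
      by_contra hne
      rw [if_neg hne] at hlt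
      split_ifs at hlt <;> omega
    refine ⟨((p.1, q.1), p.2), ⟨h.1, hp⟩, ?_⟩
    have hq : side q.1 ≠ true := fun h2 => h1 (hp.trans h2.symm)
    rcases h.2 with ⟨_, h3⟩ | ⟨h3, _⟩
    · exact Prod.ext rfl (Prod.ext rfl h3)
    · exact absurd h3 hq
  · rintro ⟨r, ⟨h1, h2⟩, h3⟩
    obtain ⟨rfl, rfl⟩ := Prod.mk.inj h3
    refine ⟨⟨h1, Or.inl ⟨h2, rfl⟩⟩, ?_⟩
    have h4 := hs _ _ h1
    unfold lev2
    rw [if_pos h2, if_neg fun h5 => h4 (h2.trans h5.symm)]
    exact Nat.zero_lt_one

theorem hom_lift [Nonempty U] (hs : ∀ u v, H.Adj u v → side u ≠ side v) (G : SimpleGraph U)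
    (K : ℕ) (σ : V × V → Equiv.Perm (Fin K)) :
    homDensity (liftGraph H side K σ) G =
      ZC K (sideE H side) (Ultra.unif U) (Ultra.unif U) (adjm G) σ := by
  classical
  have ho := lift_level H side hs σ
  have hor : Oriented (orient (liftGraph H side K σ) (lev2 side)) := by
    rw [lift_orient H side hs]
    intro e he e' he'
    simp only [mem_image, mem_product, sideE, mem_filter, mem_univ, true_and, and_true] at he he'
    obtain ⟨r, ⟨h1, h2⟩, rfl⟩ := he
    obtain ⟨r', ⟨h1', h2'⟩, rfl⟩ := he'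
    intro h
    have h3 : r.1.1 = r'.1.2 := congrArg Prod.fst h
    have h4 := hs _ _ h1'
    rw [← h3] at h4
    exact h4 (h2'.trans h2.symm)
  rw [← hom_adjm _ G ho, ← bip_self_eq (unif_sum U) hor]
  unfold bip ZC
  have hinj : Set.InjOn (fun r : (V × V) × Fin K =>
      (((r.1.1, r.2), (r.1.2, σ r.1 r.2)) : (V × Fin K) × (V × Fin K)))
      ↑(sideE H side ×ˢ (univ : Finset (Fin K))) := by
    intro r _ r' _ h
    obtain ⟨h1, h2⟩ := Prod.mk.inj h
    obtain ⟨h3, h4⟩ := Prod.mk.inj h1
    obtain ⟨h5, _⟩ := Prod.mk.inj h2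
    exact Prod.ext (Prod.ext h3 h5) h4
  rw [← (Equiv.curry V (Fin K) U).symm.sum_comp]
  refine sum_congr rfl fun x _ => ?_
  rw [← (Equiv.curry V (Fin K) U).symm.sum_comp]
  refine sum_congr rfl fun y _ => ?_
  rw [lift_orient H side hs, prod_image hinj, prod_product, Fintype.prod_prod_type,
    Fintype.prod_prod_type]
  rfl

theorem card_sideE (hs : ∀ u v, H.Adj u v → side u ≠ side v) :
    (sideE H side).card = H.edgeFinset.card := by
  have ho : ∀ u v, H.Adj u v → (if side u = true then 0 else 1 : ℕ) ≠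
      (if side v = true then 0 else 1 : ℕ) := by
    intro u v h
    have := hs _ _ h
    rcases hp : side u <;> rcases hq : side v <;> simp_all
  rw [← card_orient H ho]
  congr 1
  ext ⟨u, v⟩
  simp only [sideE, orient, mem_filter, mem_univ, true_and]
  constructor
  · rintro ⟨h1, h2⟩
    have h4 := hs _ _ h1
    refine ⟨h1, ?_⟩
    rw [if_pos h2, if_neg fun h5 => h4 (h2.trans h5.symm)]
    exact Nat.zero_lt_one
  · rintro ⟨h1, h2⟩
    refine ⟨h1, ?_⟩
    by_contra hne
    rw [if_neg hne] at h2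
    split_ifs at h2 <;> omega

end

/-- sums over all functions that depend only on the values on `E` -/
theorem sum_restrict {T P : Type*} [Fintype T] [DecidableEq T] [Fintype P] (E : Finset T)
    (F : (E → P) → ℝ) :
    ∑ σ : T → P, F (fun e => σ e) =
      (Fintype.card P : ℝ) ^ (Fintype.card T - E.card) * ∑ τ : E → P, F τ := by
  classical
  rw [← (Equiv.piEquivPiSubtypeProd (fun t => t ∈ E) (fun _ => P)).symm.sum_comp,
    Fintype.sum_prod_type]
  have h : ∀ (τ : {t // t ∈ E} → P) (ρ : {t // t ∉ E} → P),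
      (F fun e : E => (Equiv.piEquivPiSubtypeProd (fun t => t ∈ E) (fun _ => P)).symm (τ, ρ) e) =
        F τ := by
    intro τ ρ
    congr 1
    funext e
    simp [Equiv.piEquivPiSubtypeProd]
  simp only [h, sum_const, card_univ, nsmul_eq_mul]
  rw [← mul_sum]
  congr 1
  rw [Fintype.card_fun]
  have : Fintype.card {t // t ∉ E} = Fintype.card T - E.card := by
    rw [Fintype.card_subtype_compl, Fintype.card_coe]
  rw [this]
  push_cast
  rfl

/-- **random lifts** -/
theorem lift_average {V U : Type} [Fintype V] [DecidableEq V] [Finite U] [Nonempty U]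
    (H : SimpleGraph V) (side : V → Bool) (hs : ∀ u v, H.Adj u v → side u ≠ side v)
    (G : SimpleGraph U) (K : ℕ) :
    edgeDensity G ^ (K * Nat.card H.edgeSet) *
        (Fintype.card (V × V → Equiv.Perm (Fin K)) : ℝ) ≤
      ((K : ℝ) + 1) ^ (2 * Nat.card U * Nat.card H.edgeSet) *
        ∑ σ : V × V → Equiv.Perm (Fin K), homDensity (liftGraph H side K σ) G := by
  classical
  have := Fintype.ofFinite U
  set E := sideE H side with hE
  have hcE : E.card = Nat.card H.edgeSet := by
    rw [hE, card_sideE H side hs, SimpleGraph.edgeFinset_card, ← Nat.card_eq_fintype_card]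
  have h1 := average_lower K (E := E) (μ := Ultra.unif U) (ν := Ultra.unif U) (W := adjm G)
    (unif_nonneg U) (unif_nonneg U) (adjm_nonneg G) (unif_sum U) (unif_sum U)
  have hm : ∑ s, ∑ t, Ultra.unif U s * Ultra.unif U t * adjm G s t = edgeDensity G := mean_adjm G
  rw [hm] at h1
  have h2 : ∀ τ : E → Equiv.Perm (Fin K), ∀ σ : V × V → Equiv.Perm (Fin K),
      (∀ e : E, τ e = σ e) → ZC K E (Ultra.unif U) (Ultra.unif U) (adjm G)
        (fun e => if h : e ∈ E then τ ⟨e, h⟩ else 1) = homDensity (liftGraph H side K σ) G := by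
    intro τ σ h
    rw [hom_lift H side hs]
    unfold ZC
    refine sum_congr rfl fun x _ => sum_congr rfl fun y _ => ?_
    congr 1
    refine prod_congr rfl fun e he => ?_
    have h9 : (if h : e ∈ E then τ ⟨e, h⟩ else 1) = σ e := by
      rw [dif_pos (show e ∈ E from he)]
      exact h ⟨e, he⟩
    dsimp only
    rw [h9]
  have h3 := sum_restrict E (fun τ : E → Equiv.Perm (Fin K) =>
    ZC K E (Ultra.unif U) (Ultra.unif U) (adjm G) (fun e => if h : e ∈ E then τ ⟨e, h⟩ else 1))
  have h4 : ∑ σ : V × V → Equiv.Perm (Fin K), homDensity (liftGraph H side K σ) G =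
      (Fintype.card (Equiv.Perm (Fin K)) : ℝ) ^ (Fintype.card (V × V) - E.card) *
      ∑ τ : E → Equiv.Perm (Fin K), ZC K E (Ultra.unif U) (Ultra.unif U) (adjm G)
        (fun e => if h : e ∈ E then τ ⟨e, h⟩ else 1) := by
    rw [← h3]
    exact sum_congr rfl fun σ _ => (h2 _ σ fun _ => rfl).symm
  have hle : E.card ≤ Fintype.card (V × V) := card_le_univ E
  rw [h4, ← hcE, Fintype.card_fun, Nat.card_eq_fintype_card]
  have h5 : ((Fintype.card (Equiv.Perm (Fin K)) ^ Fintype.card (V × V) : ℕ) : ℝ) =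
      (K.factorial : ℝ) ^ E.card *
        (Fintype.card (Equiv.Perm (Fin K)) : ℝ) ^ (Fintype.card (V × V) - E.card) := by
    rw [Fintype.card_perm, Fintype.card_fin, ← pow_add, Nat.add_sub_cancel' hle]
    push_cast
    rfl
  rw [h5]
  have h6 : (0 : ℝ) ≤ (Fintype.card (Equiv.Perm (Fin K)) : ℝ) ^
      (Fintype.card (V × V) - E.card) := by positivity
  calc edgeDensity G ^ (K * E.card) * ((K.factorial : ℝ) ^ E.card *
        (Fintype.card (Equiv.Perm (Fin K)) : ℝ) ^ (Fintype.card (V × V) - E.card)) =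
      (Fintype.card (Equiv.Perm (Fin K)) : ℝ) ^ (Fintype.card (V × V) - E.card) *
        ((K.factorial : ℝ) * edgeDensity G ^ K) ^ E.card := by
        rw [mul_pow, ← pow_mul]; ring
    _ ≤ (Fintype.card (Equiv.Perm (Fin K)) : ℝ) ^ (Fintype.card (V × V) - E.card) *
        ((((K : ℝ) + 1) ^ (Fintype.card U + Fintype.card U)) ^ E.card *
        ∑ τ : E → Equiv.Perm (Fin K), ZC K E (Ultra.unif U) (Ultra.unif U) (adjm G)
          (fun e => if h : e ∈ E then τ ⟨e, h⟩ else 1)) := mul_le_mul_of_nonneg_left h1 h6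
    _ = _ := by
        rw [← pow_mul, ← two_mul]
        ring

end Vale.Agent.P050.R2.H466
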