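import Vale.Agent.P050.R2.H466.Targets
import Vale.Agent.P050.R2.H466.Lift

/-!
Log-supermodular targets, and random lifts: the statements.
-/

namespace Vale.Agent.P050.R2.H466

open Finset Function MeasureTheory Vale.Agent.P050 Vale.Agent.P050.H392 Vale.Agent.P050.H753

theorem latticeTargets : LatticeTargets := by
  refine ⟨?_, ?_, ?_, ?_⟩
  · intro A B L M _ _ _ _ _ _ _ _ E μ ν W hμ0 hν0 hW0 hμ1 hν1 hμ hν hW
    exact lattice_bip hμ0 hν0 hW0 hμ hν hW hμ1 hν1 E
  · intro A B I J Ω _ _ _ _ _ r s μ ν _ _ E W C hμ hν hWm hW0 hWC hW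
    classical
    exact meas_bip hμ hν hWm hW0 hWC hW E
  · intro V I Ω _ _ _ _ H _ r s μ _ W hs C hH hμ hμ' hWm hW0 hWC hW
    exact meas_sym H hH hμ hμ' hs hWm hW0 hWC hW
  · intro U L M _ _ _ _ _ _ G c R hG hL hM
    exact against_lattice G c R hG hL hM

theorem randomLifts : RandomLifts := by
  intro V U _ _ _ _ H side G K hs
  exact lift_average H side hs G K

end Vale.Agent.P050.R2.H466
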