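import Vale.Agent.P050.R2.H466.Lln
import Vale.Agent.P050.R2.H466.LDefs

/-!
The inequality on a grid of sample points.
-/

namespace Vale.Agent.P050.R2.H466

open Finset Function

section unnormalised

variable {A B : Type*} [Fintype A] [Fintype B] [DecidableEq A] [DecidableEq B]

theorem sum_pow_pi {X : Type*} [Fintype X] (μ : X → ℝ) :
    ∑ x : A → X, ∏ a, μ (x a) = (∑ s, μ s) ^ Fintype.card A := by
  classical
  have h := prod_univ_sum (fun _ : A => (univ : Finset X)) (fun _ s => μ s)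
  rw [Fintype.piFinset_univ, prod_const, card_univ] at h
  exact h.symm

theorem ZZ_empty {X Y : Type*} [Fintype X] [Fintype Y] (μ : X → ℝ) (ν : Y → ℝ) (W : X → Y → ℝ) :
    ZZ (∅ : Finset (A × B)) μ ν W = (∑ s, μ s) ^ Fintype.card A * (∑ t, ν t) ^ Fintype.card B := by
  unfold ZZ
  simp only [prod_empty, mul_one]
  rw [← sum_pow_pi, ← sum_pow_pi, sum_mul_sum]

theorem ZZ_scale {X Y : Type*} [Fintype X] [Fintype Y] (E : Finset (A × B)) (μ : X → ℝ)
    (ν : Y → ℝ) (W : X → Y → ℝ) (a b : ℝ) :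
    ZZ E (fun s => μ s / a) (fun t => ν t / b) W =
      ZZ E μ ν W / (a ^ Fintype.card A * b ^ Fintype.card B) := by
  unfold ZZ
  rw [sum_div]
  refine sum_congr rfl fun x _ => ?_
  rw [sum_div]
  refine sum_congr rfl fun y _ => ?_
  rw [prod_div_distrib, prod_div_distrib, prod_const, prod_const, card_univ, card_univ]
  rw [div_mul_div_comm, div_mul_eq_mul_div]

variable {L M : Type*} [DistribLattice L] [Fintype L] [DistribLattice M] [Fintype M]

/-- the inequality for weights with any total mass -/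
theorem lattice_bip' {μ : L → ℝ} {ν : M → ℝ} {W : L → M → ℝ}
    (hμ0 : ∀ x, 0 ≤ μ x) (hν0 : ∀ y, 0 ≤ ν y) (hW0 : ∀ x y, 0 ≤ W x y)
    (hμ : LSM μ) (hν : LSM ν)
    (hW : ∀ x y x' y', W x y * W x' y' ≤ W (x ⊓ x') (y ⊓ y') * W (x ⊔ x') (y ⊔ y'))
    (E : Finset (A × B)) :
    (∑ s, ∑ t, μ s * ν t * W s t) ^ E.card * (∑ s, μ s) ^ Fintype.card A *
      (∑ t, ν t) ^ Fintype.card B ≤ ((∑ s, μ s) * ∑ t, ν t) ^ E.card * ZZ E μ ν W := by
  classical
  have hZ : 0 ≤ ZZ E μ ν W := ZZ_nonneg hμ0 hν0 hW0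
  have ha0 : 0 ≤ ∑ s, μ s := sum_nonneg fun _ _ => hμ0 _
  have hb0 : 0 ≤ ∑ t, ν t := sum_nonneg fun _ _ => hν0 _
  rcases E.eq_empty_or_nonempty with rfl | hE
  · rw [ZZ_empty]
    simp
  have hE' : E.card ≠ 0 := hE.card_pos.ne'
  rcases ha0.eq_or_lt with ha | ha
  · have h0 : ∀ s, μ s = 0 := fun s =>
      (sum_eq_zero_iff_of_nonneg fun _ _ => hμ0 _).1 ha.symm s (mem_univ s)
    simp only [h0, zero_mul, sum_const_zero]
    rw [zero_pow hE']
    simp
  rcases hb0.eq_or_lt with hb | hb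
  · have h0 : ∀ s, ν s = 0 := fun s =>
      (sum_eq_zero_iff_of_nonneg fun _ _ => hν0 _).1 hb.symm s (mem_univ s)
    simp only [h0, zero_mul, mul_zero, sum_const_zero]
    rw [zero_pow hE']
    simp
  set a : ℝ := ∑ s, μ s with had
  set b : ℝ := ∑ t, ν t with hbd
  have hμ' : LSM fun s => μ s / a := by
    intro x y
    have := hμ x y
    rw [div_mul_div_comm, div_mul_div_comm]
    gcongr
  have hν' : LSM fun s => ν s / b := by
    intro x y
    have := hν x y
    rw [div_mul_div_comm, div_mul_div_comm]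
    gcongr
  have key := lattice_bip (fun x => div_nonneg (hμ0 x) ha.le) (fun y => div_nonneg (hν0 y) hb.le)
    hW0 hμ' hν' hW (by rw [← sum_div, div_self ha.ne']) (by rw [← sum_div, div_self hb.ne']) E
  rw [ZZ_scale] at key
  have e : ∑ s, ∑ t, μ s / a * (ν t / b) * W s t = (∑ s, ∑ t, μ s * ν t * W s t) / (a * b) := by
    rw [sum_div]
    refine sum_congr rfl fun s _ => ?_
    rw [sum_div]
    refine sum_congr rfl fun t _ => ?_
    rw [div_mul_div_comm, div_mul_eq_mul_div]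
  rw [e, div_pow, div_le_div_iff₀ (by positivity) (by positivity)] at key
  calc _ = (∑ s, ∑ t, μ s * ν t * W s t) ^ E.card *
        (a ^ Fintype.card A * b ^ Fintype.card B) := by ring
    _ ≤ _ := key
    _ = _ := by ring

end unnormalised

/-! ### order functions -/

variable {I J Ω : Type*}

/-- the grid of the sample points, with sorted coordinates -/
theorem sorted_grid {N : ℕ} (r : I → Ω → ℝ) (ω : I → Fin N → Ω) (σ : I → Equiv.Perm (Fin N))
    (hσ : ∀ i, Monotone fun c => r i (ω i (σ i c))) (k k' : I → Fin N) :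
    Sorted r (fun i => ω i (σ i (k i))) (fun i => ω i (σ i (k' i)))
      (fun i => ω i (σ i ((k ⊓ k') i))) (fun i => ω i (σ i ((k ⊔ k') i))) := by
  intro i
  have e1 : (k ⊓ k') i = min (k i) (k' i) := rfl
  have e2 : (k ⊔ k') i = max (k i) (k' i) := rfl
  dsimp only
  rw [e1, e2]
  refine ⟨hσ i min_le_max, ?_⟩
  rcases le_total (k i) (k' i) with h | h
  · left
    rw [min_eq_left h, max_eq_right h]
    exact ⟨rfl, rfl⟩
  · right
    rw [min_eq_right h, max_eq_left h]
    exact ⟨rfl, rfl⟩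

variable {A B : Type*} [Fintype A] [Fintype B] [DecidableEq A] [DecidableEq B]
  [Fintype I] [Fintype J] [DecidableEq I] [DecidableEq J]

/-- the integrand for the mean -/
def patP (f : (I → Ω) → ℝ) (g : (J → Ω) → ℝ) (W : (I → Ω) → (J → Ω) → ℝ) (z : I ⊕ J → Ω) : ℝ :=
  f (fun i => z (Sum.inl i)) * g (fun j => z (Sum.inr j)) *
    W (fun i => z (Sum.inl i)) (fun j => z (Sum.inr j))

/-- the integrand for the density of the graph -/
def patZ (E : Finset (A × B)) (f : (I → Ω) → ℝ) (g : (J → Ω) → ℝ) (W : (I → Ω) → (J → Ω) → ℝ)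
    (z : (A × I) ⊕ (B × J) → Ω) : ℝ :=
  (∏ a : A, f fun i => z (Sum.inl (a, i))) * (∏ b : B, g fun j => z (Sum.inr (b, j))) *
    ∏ e ∈ E, W (fun i => z (Sum.inl (e.1, i))) (fun j => z (Sum.inr (e.2, j)))

theorem grid_ineq {r : I → Ω → ℝ} {s : J → Ω → ℝ} {f : (I → Ω) → ℝ} {g : (J → Ω) → ℝ}
    {W : (I → Ω) → (J → Ω) → ℝ} (hf0 : ∀ x, 0 ≤ f x) (hg0 : ∀ y, 0 ≤ g y)
    (hW0 : ∀ x y, 0 ≤ W x y) (hf : LogSuper r f) (hg : LogSuper s g) (hW : LogSuperKernel r s W)
    (E : Finset (A × B)) {N : ℕ} (hN : 0 < N) (ω : (I ⊕ J) × Fin N → Ω) :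
    avg id (patP f g W) N ω ^ E.card * avg Sum.inl f N ω ^ Fintype.card A *
      avg Sum.inr g N ω ^ Fintype.card B ≤
    (avg Sum.inl f N ω * avg Sum.inr g N ω) ^ E.card *
      avg (Sum.map Prod.snd Prod.snd) (patZ E f g W) N ω := by
  classical
  have hNr : (0 : ℝ) < N := by exact_mod_cast hN
  set σ : I → Equiv.Perm (Fin N) := fun i => Tuple.sort fun c => r i (ω (Sum.inl i, c)) with hσ
  set τ : J → Equiv.Perm (Fin N) := fun j => Tuple.sort fun c => s j (ω (Sum.inr j, c)) with hτ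
  have hσm : ∀ i, Monotone fun c => r i (ω (Sum.inl i, σ i c)) := fun i =>
    Tuple.monotone_sort fun c => r i (ω (Sum.inl i, c))
  have hτm : ∀ j, Monotone fun c => s j (ω (Sum.inr j, τ j c)) := fun j =>
    Tuple.monotone_sort fun c => s j (ω (Sum.inr j, c))
  have sx := sorted_grid r (fun i c => ω (Sum.inl i, c)) σ hσm
  have sy := sorted_grid s (fun j c => ω (Sum.inr j, c)) τ hτm
  set zx : (I → Fin N) → I → Ω := fun k i => ω (Sum.inl i, σ i (k i)) with hzx
  set zy : (J → Fin N) → J → Ω := fun l j => ω (Sum.inr j, τ j (l j)) with hzy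
  have key := lattice_bip' (L := I → Fin N) (M := J → Fin N) (μ := fun k => f (zx k))
    (ν := fun l => g (zy l)) (W := fun k l => W (zx k) (zy l)) (fun _ => hf0 _) (fun _ => hg0 _)
    (fun _ _ => hW0 _ _) (fun k k' => hf _ _ _ _ (sx k k')) (fun l l' => hg _ _ _ _ (sy l l'))
    (fun k l k' l' => hW _ _ _ _ (sx k k') _ _ _ _ (sy l l')) E
  -- removing the sorting
  have ex : ∀ F : (I → Ω) → ℝ, ∑ k, F (zx k) = ∑ k : I → Fin N, F fun i => ω (Sum.inl i, k i) :=
    fun F => Equiv.sum_comp (Equiv.piCongrRight σ)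
      (fun k : I → Fin N => F fun i => ω (Sum.inl i, k i))
  have ey : ∀ F : (J → Ω) → ℝ, ∑ l, F (zy l) = ∑ l : J → Fin N, F fun j => ω (Sum.inr j, l j) :=
    fun F => Equiv.sum_comp (Equiv.piCongrRight τ)
      (fun l : J → Fin N => F fun j => ω (Sum.inr j, l j))
  have eA : ∀ F : (A → I → Ω) → ℝ, ∑ x : A → I → Fin N, F (fun a => zx (x a)) =
      ∑ x : A → I → Fin N, F fun a i => ω (Sum.inl i, x a i) := fun F =>
    Equiv.sum_comp (Equiv.piCongrRight fun _ : A => Equiv.piCongrRight σ)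
      (fun x : A → I → Fin N => F fun a i => ω (Sum.inl i, x a i))
  have eB : ∀ F : (B → J → Ω) → ℝ, ∑ y : B → J → Fin N, F (fun b => zy (y b)) =
      ∑ y : B → J → Fin N, F fun b j => ω (Sum.inr j, y b j) := fun F =>
    Equiv.sum_comp (Equiv.piCongrRight fun _ : B => Equiv.piCongrRight τ)
      (fun y : B → J → Fin N => F fun b j => ω (Sum.inr j, y b j))
  have e1 : ∑ k, ∑ l, f (zx k) * g (zy l) * W (zx k) (zy l) =
      avg id (patP f g W) N ω * ((N : ℝ) ^ Fintype.card I * (N : ℝ) ^ Fintype.card J) := by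
    have h1 : ∀ k, ∑ l, f (zx k) * g (zy l) * W (zx k) (zy l) =
        ∑ l : J → Fin N, f (zx k) * g (fun j => ω (Sum.inr j, l j)) *
          W (zx k) (fun j => ω (Sum.inr j, l j)) := fun k =>
      ey fun y => f (zx k) * g y * W (zx k) y
    rw [sum_congr rfl fun k _ => h1 k, ex fun x => ∑ l : J → Fin N,
      f x * g (fun j => ω (Sum.inr j, l j)) * W x (fun j => ω (Sum.inr j, l j))]
    unfold avg
    rw [Fintype.card_sum, pow_add, div_mul_cancel₀ _ (by positivity),
      ← (Equiv.sumArrowEquivProdArrow I J (Fin N)).symm.sum_comp, Fintype.sum_prod_type]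
    rfl
  have e2 : ∑ k, f (zx k) = avg Sum.inl f N ω * (N : ℝ) ^ Fintype.card I := by
    rw [ex f]
    unfold avg
    rw [div_mul_cancel₀ _ (by positivity)]
  have e3 : ∑ l, g (zy l) = avg Sum.inr g N ω * (N : ℝ) ^ Fintype.card J := by
    rw [ey g]
    unfold avg
    rw [div_mul_cancel₀ _ (by positivity)]
  have e4 : ZZ E (fun k => f (zx k)) (fun l => g (zy l)) (fun k l => W (zx k) (zy l)) =
      avg (Sum.map Prod.snd Prod.snd) (patZ E f g W) N ω *
        (((N : ℝ) ^ Fintype.card I) ^ Fintype.card A *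
          ((N : ℝ) ^ Fintype.card J) ^ Fintype.card B) := by
    unfold ZZ
    have h1 : ∀ x : A → I → Fin N, ∑ y : B → J → Fin N, (∏ a, f (zx (x a))) *
        (∏ b, g (zy (y b))) * ∏ e ∈ E, W (zx (x e.1)) (zy (y e.2)) =
        ∑ y : B → J → Fin N, (∏ a, f (zx (x a))) *
        (∏ b, g fun j => ω (Sum.inr j, y b j)) *
          ∏ e ∈ E, W (zx (x e.1)) fun j => ω (Sum.inr j, y e.2 j) := fun x =>
      eB fun Y => (∏ a, f (zx (x a))) * (∏ b, g (Y b)) * ∏ e ∈ E, W (zx (x e.1)) (Y e.2)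
    rw [sum_congr rfl fun x _ => h1 x, eA fun X => ∑ y : B → J → Fin N, (∏ a, f (X a)) *
        (∏ b, g fun j => ω (Sum.inr j, y b j)) *
          ∏ e ∈ E, W (X e.1) fun j => ω (Sum.inr j, y e.2 j)]
    unfold avg
    rw [Fintype.card_sum, Fintype.card_prod, Fintype.card_prod, pow_add,
      mul_comm (Fintype.card A), mul_comm (Fintype.card B), pow_mul, pow_mul,
      div_mul_cancel₀ _ (by positivity),
      ← (Equiv.sumArrowEquivProdArrow (A × I) (B × J) (Fin N)).symm.sum_comp,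
      Fintype.sum_prod_type, ← (Equiv.curry A I (Fin N)).symm.sum_comp]
    refine sum_congr rfl fun x _ => ?_
    rw [← (Equiv.curry B J (Fin N)).symm.sum_comp]
    rfl
  rw [e1, e2, e3, e4] at key
  have hc : 0 < ((N : ℝ) ^ Fintype.card I * (N : ℝ) ^ Fintype.card J) ^ E.card *
      (((N : ℝ) ^ Fintype.card I) ^ Fintype.card A *
          ((N : ℝ) ^ Fintype.card J) ^ Fintype.card B) := by positivity
  refine le_of_mul_le_mul_right ?_ hc
  calc _ = (avg id (patP f g W) N ω * ((N : ℝ) ^ Fintype.card I * (N : ℝ) ^ Fintype.card J)) ^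
        E.card * (avg Sum.inl f N ω * (N : ℝ) ^ Fintype.card I) ^ Fintype.card A *
        (avg Sum.inr g N ω * (N : ℝ) ^ Fintype.card J) ^ Fintype.card B := by
        simp only [mul_pow]; ring
    _ ≤ _ := key
    _ = _ := by simp only [mul_pow]; ring

end Vale.Agent.P050.R2.H466
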