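import Vale.Agent.P050.R2.H466.Types

/-!
Sidorenko's inequality for log-supermodular kernels on finite distributive lattices.
-/

namespace Vale.Agent.P050.R2.H466

open Finset

/-- the two-sided inequality on cubes -/
theorem cube_bip {A B I I' : Type*} [Fintype A] [Fintype B] [DecidableEq A] [DecidableEq B]
    [Fintype I] [Fintype I'] [DecidableEq I] [DecidableEq I']
    {μ : (I → Bool) → ℝ} {ν : (I' → Bool) → ℝ} {W : (I → Bool) → (I' → Bool) → ℝ}
    (hμ0 : ∀ x, 0 ≤ μ x) (hν0 : ∀ y, 0 ≤ ν y) (hW0 : ∀ x y, 0 ≤ W x y) (hμ : LSM μ) (hν : LSM ν)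
    (hW : ∀ x y x' y', W x y * W x' y' ≤ W (x ⊓ x') (y ⊓ y') * W (x ⊔ x') (y ⊔ y'))
    (hμ1 : ∑ x, μ x = 1) (hν1 : ∑ y, ν y = 1) (E : Finset (A × B)) :
    (∑ s, ∑ t, μ s * ν t * W s t) ^ E.card ≤ ZZ E μ ν W :=
  sidorenko_of_cover hμ0 hν0 hW0 hμ1 hν1 fun K σ => cover_bip hμ0 hν0 hW0 hμ hν hW E K σ

section transfer
variable {A B X Y X' Y' : Type*} [Fintype A] [Fintype B] [DecidableEq A] [DecidableEq B]
  [Fintype X] [Fintype Y] [Fintype X'] [Fintype Y'] {ι : X → X'} {ι' : Y → Y'}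

omit [Fintype X] [Fintype X'] in
theorem extend_zero {μ : X → ℝ} {x : X'} (h : x ∉ Set.range ι) : Function.extend ι μ 0 x = 0 := by
  rw [Function.extend_apply' _ _ _ (by simpa using h)]
  rfl

theorem sum_extend (hι : Function.Injective ι) (μ : X → ℝ) (g : X' → ℝ) :
    ∑ x, Function.extend ι μ 0 x * g x = ∑ x, μ x * g (ι x) := by
  symm
  refine Fintype.sum_of_injective ι hι _ _ (fun x hx => ?_) fun x => ?_
  · rw [extend_zero hx, zero_mul]
  · rw [hι.extend_apply]

theorem sum_extend_pi (hι : Function.Injective ι) (μ : X → ℝ) (g : (A → X') → ℝ) :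
    ∑ x : A → X', (∏ a, Function.extend ι μ 0 (x a)) * g x =
      ∑ x : A → X, (∏ a, μ (x a)) * g fun a => ι (x a) := by
  classical
  symm
  refine Fintype.sum_of_injective (fun (x : A → X) a => ι (x a)) ?_ _ _ (fun x hx => ?_)
    fun x => ?_
  · intro x x' h
    funext a
    exact hι (congrFun h a)
  · obtain ⟨a, ha⟩ : ∃ a, x a ∉ Set.range ι := by
      by_contra hne
      push Not at hne
      choose y hy using hne
      exact hx ⟨y, funext hy⟩
    have h0 : ∏ a, Function.extend ι μ 0 (x a) = 0 := prod_eq_zero (mem_univ a) (extend_zero ha)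
    rw [h0, zero_mul]
  · simp only [hι.extend_apply]

theorem ZZ_extend (hι : Function.Injective ι) (hι' : Function.Injective ι') (E : Finset (A × B))
    (μ : X → ℝ) (ν : Y → ℝ) (W : X' → Y' → ℝ) :
    ZZ E (Function.extend ι μ 0) (Function.extend ι' ν 0) W =
      ZZ E μ ν fun x y => W (ι x) (ι' y) := by
  unfold ZZ
  have h1 : ∀ x : A → X', ∑ y : B → Y', (∏ a, Function.extend ι μ 0 (x a)) *
      (∏ b, Function.extend ι' ν 0 (y b)) * ∏ e ∈ E, W (x e.1) (y e.2) =
      (∏ a, Function.extend ι μ 0 (x a)) * ∑ y : B → Y, (∏ b, ν (y b)) *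
        ∏ e ∈ E, W (x e.1) (ι' (y e.2)) := by
    intro x
    rw [← sum_extend_pi hι' ν (fun y => ∏ e ∈ E, W (x e.1) (y e.2)), mul_sum]
    exact sum_congr rfl fun y _ => by ring
  rw [sum_congr rfl fun x _ => h1 x, sum_extend_pi hι μ]
  refine sum_congr rfl fun x _ => ?_
  rw [mul_sum]
  exact sum_congr rfl fun y _ => by ring

end transfer

/-- a finite distributive lattice is a sublattice of a cube -/
theorem exists_cube.{u} (L : Type u) [Finite L] [DistribLattice L] :
    ∃ (I : Type u) (_ : DecidableEq I) (_ : Fintype I) (f : L → I → Bool),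
      Function.Injective f ∧ (∀ a b, f (a ⊓ b) = f a ⊓ f b) ∧ ∀ a b, f (a ⊔ b) = f a ⊔ f b := by
  classical
  obtain ⟨I, _, _, f, hf⟩ := exists_birkhoff_representation L
  refine ⟨I, inferInstance, inferInstance, fun a i => decide (i ∈ f a), ?_, ?_, ?_⟩
  · intro a b h
    refine hf (Finset.ext fun i => ?_)
    have h1 : decide (i ∈ f a) = decide (i ∈ f b) := congrFun h i
    exact decide_eq_decide.1 h1
  · intro a b
    funext i
    simp
  · intro a b
    funext i
    simp

theorem extend_lsm {α β : Type*} [Lattice α] [Lattice β] {f : α → β} (hf : Function.Injective f)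
    (hinf : ∀ a b, f (a ⊓ b) = f a ⊓ f b) (hsup : ∀ a b, f (a ⊔ b) = f a ⊔ f b) {μ : α → ℝ}
    (h0 : ∀ x, 0 ≤ μ x) (h : LSM μ) :
    (∀ x, 0 ≤ Function.extend f μ 0 x) ∧ LSM (Function.extend f μ 0) := by
  have h1 : ∀ x, 0 ≤ Function.extend f μ 0 x := by
    intro x
    by_cases hx : x ∈ Set.range f
    · obtain ⟨a, rfl⟩ := hx
      rw [hf.extend_apply]
      exact h0 a
    · rw [extend_zero hx]
  refine ⟨h1, fun x y => ?_⟩
  by_cases hx : x ∈ Set.range f
  · by_cases hy : y ∈ Set.range f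
    · obtain ⟨a, rfl⟩ := hx
      obtain ⟨b, rfl⟩ := hy
      rw [← hinf, ← hsup, hf.extend_apply, hf.extend_apply, hf.extend_apply, hf.extend_apply]
      exact h a b
    · rw [extend_zero hy, mul_zero]
      exact mul_nonneg (h1 _) (h1 _)
  · rw [extend_zero hx, zero_mul]
    exact mul_nonneg (h1 _) (h1 _)

variable {A B L M : Type*} [Fintype A] [Fintype B] [DecidableEq A] [DecidableEq B]
  [DistribLattice L] [Fintype L] [DistribLattice M] [Fintype M]

/-- **Sidorenko's inequality for log-supermodular kernels on distributive lattices** -/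
theorem lattice_bip {μ : L → ℝ} {ν : M → ℝ} {W : L → M → ℝ}
    (hμ0 : ∀ x, 0 ≤ μ x) (hν0 : ∀ y, 0 ≤ ν y) (hW0 : ∀ x y, 0 ≤ W x y)
    (hμ : LSM μ) (hν : LSM ν)
    (hW : ∀ x y x' y', W x y * W x' y' ≤ W (x ⊓ x') (y ⊓ y') * W (x ⊔ x') (y ⊔ y'))
    (hμ1 : ∑ x, μ x = 1) (hν1 : ∑ y, ν y = 1) (E : Finset (A × B)) :
    (∑ s, ∑ t, μ s * ν t * W s t) ^ E.card ≤ ZZ E μ ν W := by
  classical
  obtain ⟨I, _, _, f, hf, hfi, hfs⟩ := exists_cube L
  obtain ⟨J, _, _, g, hg, hgi, hgs⟩ := exists_cube M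
  obtain ⟨m0, m1⟩ := extend_lsm hf hfi hfs hμ0 hμ
  obtain ⟨n0, n1⟩ := extend_lsm hg hgi hgs hν0 hν
  -- the kernel on the cubes
  have hfg : Function.Injective (Prod.map f g) := hf.prodMap hg
  have hW' : LSM fun z : L × M => W z.1 z.2 := fun z z' => hW z.1 z.2 z'.1 z'.2
  obtain ⟨w0, w1⟩ := extend_lsm (f := Prod.map f g) hfg
    (fun a b => Prod.ext (hfi _ _) (hgi _ _)) (fun a b => Prod.ext (hfs _ _) (hgs _ _))
    (μ := fun z : L × M => W z.1 z.2) (fun z => hW0 _ _) hW'
  set W' : (I → Bool) → (J → Bool) → ℝ := fun x y =>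
    Function.extend (Prod.map f g) (fun z : L × M => W z.1 z.2) 0 (x, y) with hWd
  have e : ∀ x y, W' (f x) (g y) = W x y := fun x y =>
    hfg.extend_apply (fun z : L × M => W z.1 z.2) 0 (x, y)
  have hm1 : ∑ x, Function.extend f μ 0 x = 1 := by
    have := sum_extend hf μ (fun _ => 1)
    simpa [hμ1] using this
  have hn1 : ∑ x, Function.extend g ν 0 x = 1 := by
    have := sum_extend hg ν (fun _ => 1)
    simpa [hν1] using this
  have key := cube_bip m0 n0 (fun x y => w0 (x, y)) m1 n1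
    (fun x y x' y' => w1 (x, y) (x', y')) hm1 hn1 E (W := W')
  rw [ZZ_extend hf hg] at key
  have e2 : ∑ s, ∑ t, Function.extend f μ 0 s * Function.extend g ν 0 t * W' s t =
      ∑ s, ∑ t, μ s * ν t * W s t := by
    have a1 : ∀ s, ∑ t, Function.extend f μ 0 s * Function.extend g ν 0 t * W' s t =
        Function.extend f μ 0 s * ∑ t, ν t * W' s (g t) := by
      intro s
      rw [← sum_extend hg ν (fun t => W' s t), mul_sum]
      exact sum_congr rfl fun t _ => by ring
    rw [sum_congr rfl fun s _ => a1 s, sum_extend hf μ]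
    refine sum_congr rfl fun s _ => ?_
    rw [mul_sum]
    refine sum_congr rfl fun t _ => ?_
    rw [e]
    ring
  rw [e2] at key
  simpa only [e] using key

end Vale.Agent.P050.R2.H466
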