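import Vale.Agent.P050.R2.H466.Lattice

/-!
Averages over a random grid converge to the integral.
-/

namespace Vale.Agent.P050.R2.H466

open Finset Function MeasureTheory

theorem mp_integral {α β : Type*} [MeasurableSpace α] [MeasurableSpace β] {μ : Measure α}
    {ν : Measure β} {φ : α → β} (h : MeasurePreserving φ μ ν) {g : β → ℝ} (hg : Measurable g) :
    ∫ x, g (φ x) ∂μ = ∫ y, g y ∂ν := by
  rw [← h.map_eq, integral_map h.measurable.aemeasurable hg.aestronglyMeasurable]

section lln

variable {Ω : Type*} [MeasurableSpace Ω]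

/-- injective change of the index set -/
theorem mp_comp_inj {S S' : Type*} [Fintype S] [Fintype S'] {φ : S → S'} (hφ : Injective φ)
    (m : S' → Measure Ω) [∀ t, IsProbabilityMeasure (m t)] :
    MeasurePreserving (fun (z : S' → Ω) (s : S) => z (φ s)) (Measure.pi m)
      (Measure.pi fun s => m (φ s)) := by
  classical
  have hm : Measurable (fun (z : S' → Ω) (s : S) => z (φ s)) :=
    measurable_pi_lambda _ fun s => measurable_pi_apply (φ s)
  refine ⟨hm, ?_⟩
  symm
  refine Measure.pi_eq fun s hs => ?_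
  rw [Measure.map_apply hm (MeasurableSet.univ_pi hs)]
  set t : S' → Set Ω := fun i => if h : ∃ v, φ v = i then s h.choose else Set.univ with ht
  have ht' : ∀ v, t (φ v) = s v := by
    intro v
    have h : ∃ v', φ v' = φ v := ⟨v, rfl⟩
    simp only [ht]
    rw [dif_pos h]
    rw [hφ h.choose_spec]
  have hpre : (fun (z : S' → Ω) (v : S) => z (φ v)) ⁻¹' Set.univ.pi s = Set.univ.pi t := by
    ext z
    simp only [Set.mem_preimage, Set.mem_pi, Set.mem_univ, true_implies]
    constructor
    · intro h i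
      by_cases hi : ∃ v, φ v = i
      · obtain ⟨v, rfl⟩ := hi
        rw [ht']; exact h v
      · simp only [ht]; rw [dif_neg hi]; trivial
    · intro h v
      rw [← ht']; exact h _
  rw [hpre, Measure.pi_pi]
  have h1 : ∏ i, m i (t i) = ∏ i ∈ univ.image φ, m i (t i) := by
    symm
    refine Finset.prod_subset (Finset.subset_univ _) fun i _ hi => ?_
    have hi' : ¬ ∃ v, φ v = i := by simpa using hi
    simp only [ht]; rw [dif_neg hi', measure_univ]
  rw [h1, Finset.prod_image (fun a _ b _ h => hφ h)]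
  exact Finset.prod_congr rfl fun v _ => by rw [ht']

variable {T : Type*} [Fintype T] (m : T → Measure Ω) [∀ t, IsProbabilityMeasure (m t)]
  {S : Type*} [Fintype S] [DecidableEq S] {C : ℝ}

/-- the average of `G` over all choices of the sample points -/
noncomputable def avg (π : S → T) (G : (S → Ω) → ℝ) (N : ℕ) (ω : T × Fin N → Ω) : ℝ :=
  (∑ k : S → Fin N, G fun s => ω (π s, k s)) / (N : ℝ) ^ Fintype.card S

theorem tendsto_desc (k : ℕ) : Filter.Tendsto (fun N : ℕ => (N.descFactorial k : ℝ) / (N : ℝ) ^ k)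
    Filter.atTop (nhds 1) := by
  induction k with
  | zero => simp
  | succ k ih =>
    have h2 : Filter.Tendsto (fun N : ℕ => 1 - (k : ℝ) * (1 / (N : ℝ))) Filter.atTop
        (nhds (1 - k * 0)) :=
      tendsto_const_nhds.sub (tendsto_one_div_atTop_nhds_zero_nat.const_mul _)
    have h3 := h2.mul ih
    simp only [mul_zero, sub_zero, mul_one] at h3
    refine h3.congr' ?_
    filter_upwards [Filter.eventually_gt_atTop k] with N hN
    have hN0 : (N : ℝ) ≠ 0 := by
      have : 0 < N := lt_of_le_of_lt (Nat.zero_le k) hN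
      exact_mod_cast this.ne'
    rw [Nat.descFactorial_succ, Nat.cast_mul, Nat.cast_sub hN.le, pow_succ]
    field_simp

omit [Fintype T] [Fintype S] [DecidableEq S] in
theorem measurable_grid {G : (S → Ω) → ℝ} (hG : Measurable G) (π : S → T) {N : ℕ}
    (k : S → Fin N) : Measurable fun ω : T × Fin N → Ω => G fun s => ω (π s, k s) :=
  hG.comp (measurable_pi_lambda _ fun _ => measurable_pi_apply _)

omit [Fintype T] in
theorem measurable_avg {G : (S → Ω) → ℝ} (hG : Measurable G) (π : S → T) (N : ℕ) :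
    Measurable (avg (T := T) π G N) :=
  (Finset.measurable_sum _ fun _ _ => measurable_grid hG π _).div_const _

omit [Fintype T] [MeasurableSpace Ω] in
theorem abs_avg_le {G : (S → Ω) → ℝ} (hC : ∀ z, |G z| ≤ C) (π : S → T) {N : ℕ} (hN : 0 < N)
    (ω : T × Fin N → Ω) : |avg π G N ω| ≤ C := by
  have hNr : (0 : ℝ) < N := by exact_mod_cast hN
  unfold avg
  rw [abs_div, abs_of_nonneg (show (0 : ℝ) ≤ (N : ℝ) ^ Fintype.card S by positivity),
    div_le_iff₀ (by positivity)]
  calc |∑ k : S → Fin N, G fun s => ω (π s, k s)| ≤ ∑ k : S → Fin N, |G fun s => ω (π s, k s)| :=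
        abs_sum_le_sum_abs _ _
    _ ≤ ∑ _k : S → Fin N, C := sum_le_sum fun _ _ => hC _
    _ = C * (N : ℝ) ^ Fintype.card S := by
        rw [sum_const, card_univ, Fintype.card_fun, Fintype.card_fin, nsmul_eq_mul]
        push_cast
        ring

theorem integrable_of_abs {Θ : Type*} [MeasurableSpace Θ] {ν : Measure Θ} [IsFiniteMeasure ν]
    {f : Θ → ℝ} (hf : Measurable f) {c : ℝ} (h : ∀ x, |f x| ≤ c) : Integrable f ν :=
  Integrable.of_bound hf.aestronglyMeasurable c (Filter.Eventually.of_forall fun x => by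
    rw [Real.norm_eq_abs]; exact h x)

theorem abs_integral_le {Θ : Type*} [MeasurableSpace Θ] {ν : Measure Θ} [IsProbabilityMeasure ν]
    {f : Θ → ℝ} {c : ℝ} (h : ∀ x, |f x| ≤ c) : |∫ x, f x ∂ν| ≤ c := by
  have := norm_integral_le_of_norm_le_const (μ := ν) (f := f) (C := c)
    (Filter.Eventually.of_forall fun x => by rw [Real.norm_eq_abs]; exact h x)
  simpa using this

/-- first moment -/
theorem tendsto_mean {G : (S → Ω) → ℝ} (hG : Measurable G) (hC : ∀ z, |G z| ≤ C) (π : S → T) :
    Filter.Tendsto (fun N : ℕ => ∫ ω, avg π G N ω ∂(Measure.pi fun p : T × Fin N => m p.1))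
      Filter.atTop (nhds (∫ z, G z ∂(Measure.pi fun s => m (π s)))) := by
  classical
  set c : ℝ := ∫ z, G z ∂(Measure.pi fun s => m (π s)) with hc
  set n : ℕ := Fintype.card S with hn
  have hcC : |c| ≤ C := abs_integral_le hC
  have hbound : ∀ N : ℕ, 0 < N →
      |∫ ω, avg π G N ω ∂(Measure.pi fun p : T × Fin N => m p.1) - c| ≤
      2 * C * (1 - (N.descFactorial n : ℝ) / (N : ℝ) ^ n) := by
    intro N hN
    have hNr : (0 : ℝ) < N := by exact_mod_cast hN
    set P : Measure (T × Fin N → Ω) := Measure.pi fun p : T × Fin N => m p.1 with hP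
    have hint : ∀ k : S → Fin N, Integrable (fun ω : T × Fin N → Ω => G fun s => ω (π s, k s)) P :=
      fun k => integrable_of_abs (measurable_grid hG π k) fun _ => hC _
    have h1 : ∫ ω, avg π G N ω ∂P =
        (∑ k : S → Fin N, ∫ ω, (G fun s => ω (π s, k s)) ∂P) / (N : ℝ) ^ n := by
      unfold avg
      rw [integral_div, integral_finsetSum _ fun k _ => hint k]
    have h2 : ∀ k : S → Fin N, |∫ ω, (G fun s => ω (π s, k s)) ∂P - c| ≤
        if Injective k then 0 else 2 * C := by
      intro k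
      split_ifs with hk
      · have hinj : Injective fun s : S => ((π s, k s) : T × Fin N) := fun s s' h =>
          hk (Prod.ext_iff.1 h).2
        have h3 := mp_comp_inj hinj (fun p : T × Fin N => m p.1)
        have h4 : c = ∫ ω, (G fun s => ω (π s, k s)) ∂P := by
          rw [hc, ← h3.map_eq, integral_map h3.measurable.aemeasurable hG.aestronglyMeasurable]
        rw [← h4, sub_self, abs_zero]
      · have h5 : |∫ ω, (G fun s => ω (π s, k s)) ∂P| ≤ C := abs_integral_le fun _ => hC _
        calc |∫ ω, (G fun s => ω (π s, k s)) ∂P - c|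
            ≤ |∫ ω, (G fun s => ω (π s, k s)) ∂P| + |c| := abs_sub _ _
          _ ≤ 2 * C := by linarith
    have hcard : (Finset.univ.filter fun φ : S → Fin N => Injective φ).card =
        N.descFactorial n := by
      have h1 : (Finset.univ.filter fun φ : S → Fin N => Injective φ).card =
          Fintype.card (S ↪ Fin N) := by
        rw [← Fintype.card_subtype]
        exact Fintype.card_congr (Equiv.subtypeInjectiveEquivEmbedding S (Fin N))
      rw [h1, Fintype.card_embedding_eq, Fintype.card_fin]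
    have h3 : ∑ k : S → Fin N, (if Injective k then 0 else 2 * C) =
        ((N : ℝ) ^ n - N.descFactorial n) * (2 * C) := by
      rw [Finset.sum_ite, Finset.sum_const_zero, zero_add, Finset.sum_const, nsmul_eq_mul]
      have h2 : ((Finset.univ.filter fun φ : S → Fin N => ¬ Injective φ).card : ℝ) =
          (N : ℝ) ^ n - N.descFactorial n := by
        have h3 := Finset.card_filter_add_card_filter_not (s := (Finset.univ : Finset (S → Fin N)))
          (fun φ : S → Fin N => Injective φ)
        rw [hcard, Finset.card_univ, Fintype.card_fun, Fintype.card_fin] at h3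
        have h4 : (N.descFactorial n : ℝ) +
            ((Finset.univ.filter fun φ : S → Fin N => ¬ Injective φ).card : ℝ) =
            (N : ℝ) ^ n := by
          exact_mod_cast h3
        linarith
      rw [h2]
    have h4 : ∑ _k : S → Fin N, c = (N : ℝ) ^ n * c := by
      rw [sum_const, card_univ, Fintype.card_fun, Fintype.card_fin, nsmul_eq_mul]
      push_cast
      rfl
    have h5 : ∫ ω, avg π G N ω ∂P - c =
        (∑ k : S → Fin N, (∫ ω, (G fun s => ω (π s, k s)) ∂P - c)) / (N : ℝ) ^ n := by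
      rw [h1, sum_sub_distrib, h4]
      field_simp
    rw [h5, abs_div, abs_of_nonneg (show (0 : ℝ) ≤ (N : ℝ) ^ n by positivity),
      div_le_iff₀ (by positivity)]
    calc |∑ k : S → Fin N, (∫ ω, (G fun s => ω (π s, k s)) ∂P - c)|
        ≤ ∑ k : S → Fin N, |∫ ω, (G fun s => ω (π s, k s)) ∂P - c| := abs_sum_le_sum_abs _ _
      _ ≤ ∑ k : S → Fin N, (if Injective k then 0 else 2 * C) := sum_le_sum fun k _ => h2 k
      _ = ((N : ℝ) ^ n - N.descFactorial n) * (2 * C) := h3
      _ = 2 * C * (1 - (N.descFactorial n : ℝ) / (N : ℝ) ^ n) * (N : ℝ) ^ n := by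
          field_simp
  have h0 : Filter.Tendsto (fun N : ℕ => 2 * C * (1 - (N.descFactorial n : ℝ) / (N : ℝ) ^ n))
      Filter.atTop (nhds 0) := by
    have := ((tendsto_const_nhds (x := (1 : ℝ))).sub (tendsto_desc n)).const_mul (2 * C)
    simpa using this
  rw [tendsto_iff_norm_sub_tendsto_zero]
  refine squeeze_zero' (Filter.Eventually.of_forall fun _ => norm_nonneg _) ?_ h0
  filter_upwards [Filter.eventually_gt_atTop 0] with N hN
  rw [Real.norm_eq_abs]
  exact hbound N hN

omit [Fintype T] [MeasurableSpace Ω] in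
/-- the square of an average -/
theorem avg_sq (G : (S → Ω) → ℝ) (π : S → T) (N : ℕ) (ω : T × Fin N → Ω) :
    avg π G N ω ^ 2 = avg (S := S ⊕ S) (Sum.elim π π)
      (fun z => (G fun s => z (Sum.inl s)) * G fun s => z (Sum.inr s)) N ω := by
  unfold avg
  rw [div_pow, Fintype.card_sum, pow_add, ← pow_two, sq (∑ k : S → Fin N, _)]
  congr 1
  rw [sum_mul_sum, ← (Equiv.sumArrowEquivProdArrow S S (Fin N)).symm.sum_comp,
    Fintype.sum_prod_type]
  rfl

/-- second moment -/
theorem tendsto_sq {G : (S → Ω) → ℝ} (hG : Measurable G) (hC : ∀ z, |G z| ≤ C) (π : S → T) :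
    Filter.Tendsto (fun N : ℕ => ∫ ω, (avg π G N ω - ∫ z, G z ∂(Measure.pi fun s => m (π s))) ^ 2
      ∂(Measure.pi fun p : T × Fin N => m p.1)) Filter.atTop (nhds 0) := by
  classical
  set c : ℝ := ∫ z, G z ∂(Measure.pi fun s => m (π s)) with hc
  have h1 := tendsto_mean m hG hC π
  have hG2 : Measurable fun z : S ⊕ S → Ω => (G fun s => z (Sum.inl s)) * G fun s => z (Sum.inr s) :=
    (hG.comp (measurable_pi_lambda _ fun _ => measurable_pi_apply _)).mul
      (hG.comp (measurable_pi_lambda _ fun _ => measurable_pi_apply _))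
  have hC2 : ∀ z : S ⊕ S → Ω, |(G fun s => z (Sum.inl s)) * G fun s => z (Sum.inr s)| ≤ C * C := by
    intro z
    rw [abs_mul]
    exact mul_le_mul (hC _) (hC _) (abs_nonneg _) ((abs_nonneg _).trans (hC fun s => z (Sum.inl s)))
  have h2 := tendsto_mean m hG2 hC2 (Sum.elim π π)
  have h3 : ∫ z : S ⊕ S → Ω, (G fun s => z (Sum.inl s)) * (G fun s => z (Sum.inr s))
      ∂(Measure.pi fun s => m (Sum.elim π π s)) = c ^ 2 := by
    have h4 := measurePreserving_sumPiEquivProdPi (X := fun _ : S ⊕ S => Ω)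
      (fun s : S ⊕ S => m (Sum.elim π π s))
    have h5 : ∫ z : S ⊕ S → Ω, (G fun s => z (Sum.inl s)) * (G fun s => z (Sum.inr s))
        ∂(Measure.pi fun s => m (Sum.elim π π s)) =
        ∫ p : (S → Ω) × (S → Ω), G p.1 * G p.2
          ∂((Measure.pi fun s => m (π s)).prod (Measure.pi fun s => m (π s))) := by
      have hm : Measurable fun p : (S → Ω) × (S → Ω) => G p.1 * G p.2 :=
        (hG.comp measurable_fst).mul (hG.comp measurable_snd)
      exact mp_integral h4 hm
    rw [h5, integral_prod_mul, ← hc, sq]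
  rw [h3] at h2
  have h7 : Filter.Tendsto (fun N : ℕ =>
      (∫ ω, avg (Sum.elim π π) (fun z : S ⊕ S → Ω => (G fun s => z (Sum.inl s)) *
        G fun s => z (Sum.inr s)) N ω ∂(Measure.pi fun p : T × Fin N => m p.1)) -
      2 * c * (∫ ω, avg π G N ω ∂(Measure.pi fun p : T × Fin N => m p.1)) + c ^ 2)
      Filter.atTop (nhds 0) := by
    have := (h2.sub (h1.const_mul (2 * c))).add_const (c ^ 2)
    have e : c ^ 2 - 2 * c * c + c ^ 2 = 0 := by ring
    rwa [e] at this
  refine h7.congr' ?_
  filter_upwards [Filter.eventually_gt_atTop 0] with N hN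
  set P : Measure (T × Fin N → Ω) := Measure.pi fun p : T × Fin N => m p.1 with hP
  have hi1 : Integrable (avg π G N) P :=
    integrable_of_abs (measurable_avg hG π N) fun ω => abs_avg_le hC π hN ω
  have hi2 : Integrable (fun ω => avg π G N ω ^ 2) P := by
    refine integrable_of_abs ((measurable_avg hG π N).pow_const 2) (c := C ^ 2) fun ω => ?_
    rw [abs_pow]
    exact pow_le_pow_left₀ (abs_nonneg _) (abs_avg_le hC π hN ω) 2
  have e1 : ∀ ω, (avg π G N ω - c) ^ 2 = avg π G N ω ^ 2 - 2 * c * avg π G N ω + c ^ 2 :=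
    fun ω => by ring
  have e2 : ∫ ω, (avg π G N ω ^ 2 - 2 * c * avg π G N ω + c ^ 2) ∂P =
      ∫ ω, (avg π G N ω ^ 2 - 2 * c * avg π G N ω) ∂P + ∫ _ω, c ^ 2 ∂P :=
    integral_add (hi2.sub (hi1.const_mul (2 * c))) (integrable_const _)
  have e3 : ∫ ω, (avg π G N ω ^ 2 - 2 * c * avg π G N ω) ∂P =
      ∫ ω, avg π G N ω ^ 2 ∂P - ∫ ω, 2 * c * avg π G N ω ∂P :=
    integral_sub hi2 (hi1.const_mul (2 * c))
  have e4 : ∫ ω, 2 * c * avg π G N ω ∂P = 2 * c * ∫ ω, avg π G N ω ∂P :=
    integral_const_mul _ _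
  have e5 : ∫ ω, avg π G N ω ^ 2 ∂P = ∫ ω, avg (Sum.elim π π) (fun z : S ⊕ S → Ω =>
      (G fun s => z (Sum.inl s)) * G fun s => z (Sum.inr s)) N ω ∂P := by
    congr 1
    funext ω
    exact avg_sq G π N ω
  simp only [e1]
  rw [e2, e3, e4, e5]
  simp

omit [Fintype T] in
/-- a sequence of samples for finitely many averages -/
theorem exists_seq {J : Type*} [Fintype J] {Θ : ℕ → Type*} [∀ N, MeasurableSpace (Θ N)]
    (P : ∀ N, Measure (Θ N)) [∀ N, IsProbabilityMeasure (P N)] (F : J → ∀ N, Θ N → ℝ) (c : J → ℝ)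
    (hint : ∀ j N, Integrable (fun ω => (F j N ω - c j) ^ 2) (P N))
    (hlim : ∀ j, Filter.Tendsto (fun N => ∫ ω, (F j N ω - c j) ^ 2 ∂P N) Filter.atTop (nhds 0)) :
    ∃ ω : ∀ N, Θ N, ∀ j, Filter.Tendsto (fun N => F j N (ω N)) Filter.atTop (nhds (c j)) := by
  have h1 : ∀ N, ∃ ω : Θ N, ∑ j, (F j N ω - c j) ^ 2 ≤ ∑ j, ∫ ω, (F j N ω - c j) ^ 2 ∂P N := by
    intro N
    obtain ⟨ω, hω⟩ := exists_le_integral (integrable_finsetSum univ fun j _ => hint j N)
    refine ⟨ω, hω.trans (le_of_eq ?_)⟩
    exact integral_finsetSum _ fun j _ => hint j N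
  choose ω hω using h1
  refine ⟨ω, fun j => ?_⟩
  have h2 : Filter.Tendsto (fun N => ∑ j, ∫ ω, (F j N ω - c j) ^ 2 ∂P N) Filter.atTop
      (nhds 0) := by
    have := tendsto_finsetSum (univ : Finset J) fun j _ => hlim j
    simpa using this
  have h3 : Filter.Tendsto (fun N => (F j N (ω N) - c j) ^ 2) Filter.atTop (nhds 0) := by
    refine squeeze_zero (fun _ => sq_nonneg _) (fun N => ?_) h2
    exact (single_le_sum (f := fun j => (F j N (ω N) - c j) ^ 2) (fun _ _ => sq_nonneg _)
      (mem_univ j)).trans (hω N)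
  have h4 : Filter.Tendsto (fun N => |F j N (ω N) - c j|) Filter.atTop (nhds 0) := by
    have h5 := (Real.continuous_sqrt.tendsto 0).comp h3
    rw [Real.sqrt_zero] at h5
    refine h5.congr fun N => ?_
    exact Real.sqrt_sq_eq_abs _
  rw [tendsto_iff_norm_sub_tendsto_zero]
  exact h4

end lln

end Vale.Agent.P050.R2.H466
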