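import Mathlib

/-!
Weak log-majorisation implies the inequality of sums.
-/

namespace Vale.Agent.P050.R2.H466

open Finset

/-- product over a set of indices is at most the product over an initial segment -/
theorem prod_le_range (v : ℕ → ℝ) (hv : Antitone v) (h0 : ∀ i, 0 ≤ v i) (B : Finset ℕ) :
    ∏ i ∈ B, v i ≤ ∏ i ∈ range B.card, v i := by
  induction B using Finset.induction_on_max with
  | empty => simp
  | insert a s hs ih =>
    have ha : a ∉ s := fun h => lt_irrefl _ (hs a h)
    rw [prod_insert ha, card_insert_of_notMem ha, prod_range_succ, mul_comm]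
    refine mul_le_mul ih (hv ?_) (h0 _) (prod_nonneg fun _ _ => h0 _)
    calc s.card ≤ (range a).card := card_le_card fun x hx => mem_range.2 (hs x hx)
      _ = a := card_range a

/-- Abel summation -/
theorem abel_sum (u L : ℕ → ℝ) (hu : Antitone u) (hL : ∀ i, 0 ≤ L i) (hL0 : L 0 = 0) (m : ℕ) :
    u m * L m ≤ ∑ i ∈ range m, u i * (L (i + 1) - L i) := by
  induction m with
  | zero => simp [hL0]
  | succ m ih =>
    rw [sum_range_succ]
    have h1 : u (m + 1) * L (m + 1) ≤ u m * L (m + 1) :=
      mul_le_mul_of_nonneg_right (hu (Nat.le_succ m)) (hL _)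
    nlinarith

/-- sorted form -/
theorem sum_le_of_prod_le (u v : ℕ → ℝ) (hu : Antitone u) (hu0 : ∀ i, 0 ≤ u i)
    (hv0 : ∀ i, 0 ≤ v i) (n : ℕ)
    (h : ∀ m ≤ n, ∏ i ∈ range m, u i ≤ ∏ i ∈ range m, v i) :
    ∑ i ∈ range n, u i ≤ ∑ i ∈ range n, v i := by
  induction n with
  | zero => simp
  | succ n ih =>
    by_cases hpos : 0 < u n
    · have hup : ∀ i ≤ n, 0 < u i := fun i hi => hpos.trans_le (hu hi)
      have hPu : ∀ m ≤ n + 1, 0 < ∏ i ∈ range m, u i := fun m hm =>
        prod_pos fun i hi => hup i (by have := mem_range.1 hi; omega)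
      have hvp : ∀ i ≤ n, 0 < v i := by
        intro i hi
        refine lt_of_le_of_ne (hv0 i) fun h0 => ?_
        have h1 := (hPu (n + 1) le_rfl).trans_le (h (n + 1) le_rfl)
        rw [prod_eq_zero (mem_range.2 (Nat.lt_succ_of_le hi)) h0.symm] at h1
        exact lt_irrefl _ h1
      set L : ℕ → ℝ := fun m => if m ≤ n + 1 then ∑ j ∈ range m, Real.log (v j / u j) else 0
        with hL
      have hL0 : ∀ m, 0 ≤ L m := by
        intro m
        simp only [hL]
        split_ifs with hm
        · rw [← Real.log_prod]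
          · rw [prod_div_distrib]
            exact Real.log_nonneg ((one_le_div (hPu m hm)).2 (h m hm))
          · intro j hj
            have hj' : j ≤ n := by have := mem_range.1 hj; omega
            exact (div_pos (hvp j hj') (hup j hj')).ne'
        · exact le_rfl
      have hab := abel_sum u L hu hL0 (by simp [hL]) (n + 1)
      have h2 : 0 ≤ ∑ i ∈ range (n + 1), u i * (L (i + 1) - L i) :=
        (mul_nonneg (hu0 _) (hL0 _)).trans hab
      have h3 : ∑ i ∈ range (n + 1), u i * (L (i + 1) - L i) ≤
          ∑ i ∈ range (n + 1), (v i - u i) := by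
        refine sum_le_sum fun i hi => ?_
        have hi' : i ≤ n := by have := mem_range.1 hi; omega
        have e1 : L (i + 1) - L i = Real.log (v i / u i) := by
          simp only [hL]
          rw [if_pos (by omega), if_pos (by omega), sum_range_succ]
          ring
        rw [e1]
        have h4 := Real.log_le_sub_one_of_pos (div_pos (hvp i hi') (hup i hi'))
        have h5 := mul_le_mul_of_nonneg_left h4 (hup i hi').le
        have h6 : u i * (v i / u i - 1) = v i - u i := by
          have := (hup i hi').ne'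
          field_simp
        linarith
      rw [sum_sub_distrib] at h3
      linarith
    · have h0 : u n = 0 := le_antisymm (not_lt.1 hpos) (hu0 n)
      rw [sum_range_succ, sum_range_succ, h0]
      have := ih fun m hm => h m (by omega)
      linarith [hv0 n]

/-- **weak log-majorisation implies the inequality of sums** -/
theorem sum_le_of_majorised {ι : Type*} [Fintype ι] (P Q : ι → ℝ) (hP : ∀ i, 0 ≤ P i)
    (hQ : ∀ i, 0 ≤ Q i)
    (h : ∀ B : Finset ι, ∃ B' : Finset ι, B'.card = B.card ∧ ∏ i ∈ B, P i ≤ ∏ i ∈ B', Q i) :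
    ∑ i, P i ≤ ∑ i, Q i := by
  classical
  -- decreasing enumerations
  have enum : ∀ R : ι → ℝ, (∀ i, 0 ≤ R i) → ∃ (e : Fin (Fintype.card ι) ≃ ι) (w : ℕ → ℝ),
      Antitone w ∧ (∀ i, 0 ≤ w i) ∧ ∀ i : Fin (Fintype.card ι), w i = R (e i) := by
    intro R hR
    set e0 := (Fintype.equivFin ι).symm
    set s := Tuple.sort (fun i => - R (e0 i)) with hs
    have hm : Monotone ((fun i => - R (e0 i)) ∘ s) := Tuple.monotone_sort _
    refine ⟨s.trans e0, fun i => if hi : i < Fintype.card ι then R (e0 (s ⟨i, hi⟩)) else 0, ?_,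
      ?_, ?_⟩
    · intro i j hij
      by_cases hj : j < Fintype.card ι
      · have hi : i < Fintype.card ι := lt_of_le_of_lt hij hj
        simp only [dif_pos hi, dif_pos hj]
        have := hm (show (⟨i, hi⟩ : Fin _) ≤ ⟨j, hj⟩ from hij)
        simp only [Function.comp] at this
        linarith
      · simp only [dif_neg hj]
        split_ifs
        · exact hR _
        · exact le_rfl
    · intro i
      dsimp only
      split_ifs
      · exact hR _
      · exact le_rfl
    · intro i
      simp [i.2]
  obtain ⟨e, u, hu, hu0, hue⟩ := enum P hP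
  obtain ⟨e', v, hv, hv0, hve⟩ := enum Q hQ
  have s1 : ∑ i, P i = ∑ i ∈ range (Fintype.card ι), u i := by
    rw [← Equiv.sum_comp e, ← Fin.sum_univ_eq_sum_range]
    exact sum_congr rfl fun i _ => (hue i).symm
  have s2 : ∑ i, Q i = ∑ i ∈ range (Fintype.card ι), v i := by
    rw [← Equiv.sum_comp e', ← Fin.sum_univ_eq_sum_range]
    exact sum_congr rfl fun i _ => (hve i).symm
  rw [s1, s2]
  refine sum_le_of_prod_le u v hu hu0 hv0 _ fun m hm => ?_
  -- the set of the first `m` indices
  set B : Finset ι := univ.image fun i : Fin m => e (Fin.castLE hm i) with hB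
  have hinj : Function.Injective fun i : Fin m => e (Fin.castLE hm i) :=
    e.injective.comp (Fin.castLE_injective hm)
  have hBc : B.card = m := by
    rw [hB, card_image_of_injective _ hinj, card_univ, Fintype.card_fin]
  have hBp : ∏ i ∈ B, P i = ∏ i ∈ range m, u i := by
    rw [hB, prod_image fun a _ b _ hab => hinj hab, ← Fin.prod_univ_eq_prod_range]
    exact prod_congr rfl fun i _ => (hue (Fin.castLE hm i)).symm
  obtain ⟨B', hc, hle⟩ := h B
  rw [← hBp]
  refine hle.trans ?_
  set C : Finset ℕ := B'.image fun i => ((e'.symm i : Fin _) : ℕ) with hC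
  have hinj' : Function.Injective fun i => ((e'.symm i : Fin _) : ℕ) :=
    Fin.val_injective.comp e'.symm.injective
  have hCc : C.card = m := by
    rw [hC, card_image_of_injective _ hinj', hc, hBc]
  have hCp : ∏ i ∈ B', Q i = ∏ i ∈ C, v i := by
    rw [hC, prod_image fun a _ b _ hab => hinj' hab]
    refine prod_congr rfl fun i _ => ?_
    rw [hve (e'.symm i), Equiv.apply_symm_apply]
  rw [hCp]
  have := prod_le_range v hv hv0 C
  rwa [hCc] at this

end Vale.Agent.P050.R2.H466
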