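import Vale.Agent.P050.R2.H466.Cont

/-!
The inequality for measures with log-supermodular densities.
-/

namespace Vale.Agent.P050.R2.H466

open Finset Function MeasureTheory Vale.Agent.P050.H392

section density

variable {X : Type*} [MeasurableSpace X] (P : Measure X) [IsProbabilityMeasure P]

/-- the measure with the density `f` -/
noncomputable def wd (f : X → ℝ) : Measure X := P.withDensity fun x => ENNReal.ofReal (f x)

variable {P}

theorem wd_apply {f : X → ℝ} {C : ℝ} (hf : Measurable f) (h0 : ∀ x, 0 ≤ f x)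
    (hC : ∀ x, f x ≤ C) {s : Set X} (hs : MeasurableSet s) :
    wd P f s = ENNReal.ofReal (∫ x in s, f x ∂P) := by
  unfold wd
  rw [withDensity_apply _ hs, ofReal_integral_eq_lintegral_ofReal]
  · exact (integrable_of_abs hf (c := C) fun x => by
      rw [abs_of_nonneg (h0 x)]; exact hC x).restrict
  · exact Filter.Eventually.of_forall fun x => h0 x

omit [IsProbabilityMeasure P] in
theorem integral_wd {f : X → ℝ} (hf : Measurable f) (h0 : ∀ x, 0 ≤ f x) (g : X → ℝ) :
    ∫ x, g x ∂(wd P f) = ∫ x, f x * g x ∂P := by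
  unfold wd
  rw [integral_withDensity_eq_integral_toReal_smul hf.ennreal_ofReal
    (Filter.Eventually.of_forall fun x => ENNReal.ofReal_lt_top)]
  refine integral_congr_ae (Filter.Eventually.of_forall fun x => ?_)
  simp only [smul_eq_mul]
  rw [ENNReal.toReal_ofReal (h0 x)]

theorem wd_one {f : X → ℝ} {C : ℝ} (hf : Measurable f) (h0 : ∀ x, 0 ≤ f x)
    (hC : ∀ x, f x ≤ C) [IsProbabilityMeasure (wd P f)] : ∫ x, f x ∂P = 1 := by
  have h := wd_apply (P := P) hf h0 hC MeasurableSet.univ
  rw [measure_univ, Measure.restrict_univ] at h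
  have h1 : 0 ≤ ∫ x, f x ∂P := integral_nonneg h0
  have := congrArg ENNReal.toReal h
  rw [ENNReal.toReal_one, ENNReal.toReal_ofReal h1] at this
  exact this.symm

/-- powers of a measure with density -/
theorem pi_wd {A : Type*} [Fintype A] {f : X → ℝ} {C : ℝ} (hf : Measurable f)
    (h0 : ∀ x, 0 ≤ f x) (hC : ∀ x, f x ≤ C) [IsProbabilityMeasure (wd P f)] :
    Measure.pi (fun _ : A => wd P f) =
      wd (Measure.pi fun _ : A => P) (fun x => ∏ a, f (x a)) := by
  have hG : Measurable fun x : A → X => ∏ a, f (x a) :=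
    Finset.measurable_prod _ fun a _ => hf.comp (measurable_pi_apply a)
  refine Measure.pi_eq fun s hs => ?_
  rw [wd_apply hG (fun x => prod_nonneg fun _ _ => h0 _) (C := C ^ (univ : Finset A).card)
    (fun x => (prod_le_pow (univ : Finset A) (f := fun a => f (x a)) (fun _ => h0 _)
      fun _ => hC _).2) (MeasurableSet.univ_pi hs),
    Measure.restrict_pi_pi, integral_fintype_prod_eq_prod (fun _ : A => f),
    ENNReal.ofReal_prod_of_nonneg fun a _ => integral_nonneg h0]
  exact prod_congr rfl fun a _ => (wd_apply hf h0 hC (hs a)).symm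

end density

variable {I J Ω : Type*} [MeasurableSpace Ω] [Fintype I] [Fintype J]

variable [DecidableEq I] [DecidableEq J] {A B : Type*} [Fintype A] [Fintype B] [DecidableEq A]
  [DecidableEq B]

/-- **two-sided inequality** -/
theorem meas_bip {r : I → Ω → ℝ} {s : J → Ω → ℝ} {μ : Measure (I → Ω)} {ν : Measure (J → Ω)}
    [hμp : IsProbabilityMeasure μ] [hνp : IsProbabilityMeasure ν] (hμ : LogSuperMeasure r μ)
    (hν : LogSuperMeasure s ν) {W : (I → Ω) → (J → Ω) → ℝ} {C : ℝ}
    (hWm : Measurable (uncurry W)) (hW0 : ∀ x y, 0 ≤ W x y) (hWC : ∀ x y, W x y ≤ C)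
    (hW : LogSuperKernel r s W) (E : Finset (A × B)) :
    (∫ x, ∫ y, W x y ∂ν ∂μ) ^ E.card ≤ bipDensity μ ν E W := by
  obtain ⟨m, f, C₁, hm, hfm, hf0, hfC, hf, rfl⟩ := hμ
  obtain ⟨n, g, C₂, hn, hgm, hg0, hgC, hg, rfl⟩ := hν
  change IsProbabilityMeasure (wd (Measure.pi m) f) at hμp
  change IsProbabilityMeasure (wd (Measure.pi n) g) at hνp
  change (∫ x, ∫ y, W x y ∂(wd (Measure.pi n) g) ∂(wd (Measure.pi m) f)) ^ E.card ≤
    bipDensity (wd (Measure.pi m) f) (wd (Measure.pi n) g) E W
  set C' : ℝ := max (max C₁ C₂) C with hC'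
  have k1 : C₁ ≤ C' := (le_max_left _ _).trans (le_max_left _ _)
  have k2 : C₂ ≤ C' := (le_max_right _ _).trans (le_max_left _ _)
  have k3 : C ≤ C' := le_max_right _ _
  have key := cont_raw m n hfm hgm hWm hf0 hg0 hW0 (fun x => (hfC x).trans k1)
    (fun y => (hgC y).trans k2) (fun x y => (hWC x y).trans k3) hf hg hW E
  rw [int_patP m n hfm hgm hWm hf0 hg0 hW0 (fun x => (hfC x).trans k1)
    (fun y => (hgC y).trans k2) (fun x y => (hWC x y).trans k3),
    int_patZ m n hfm hgm hWm hf0 hg0 hW0 (fun x => (hfC x).trans k1)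
    (fun y => (hgC y).trans k2) (fun x y => (hWC x y).trans k3), wd_one hfm hf0 hfC,
    wd_one hgm hg0 hgC] at key
  simp only [one_pow, mul_one, one_mul] at key
  have e1 : ∫ x, ∫ y, W x y ∂(wd (Measure.pi n) g) ∂(wd (Measure.pi m) f) =
      ∫ x, ∫ y, f x * g y * W x y ∂(Measure.pi n) ∂(Measure.pi m) := by
    rw [integral_wd hfm hf0]
    refine integral_congr_ae (Filter.Eventually.of_forall fun x => ?_)
    simp only
    rw [integral_wd hgm hg0, ← integral_const_mul]
    refine integral_congr_ae (Filter.Eventually.of_forall fun y => ?_)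
    simp only
    ring
  have e2 : bipDensity (wd (Measure.pi m) f) (wd (Measure.pi n) g) E W =
      ∫ x : A → I → Ω, ∫ y : B → J → Ω, (∏ a, f (x a)) * (∏ b, g (y b)) *
        ∏ e ∈ E, W (x e.1) (y e.2) ∂(Measure.pi fun _ : B => Measure.pi n)
        ∂(Measure.pi fun _ : A => Measure.pi m) := by
    have q1 : Measurable fun x : A → I → Ω => ∏ a, f (x a) :=
      Finset.measurable_prod _ fun a _ => hfm.comp (measurable_pi_apply a)
    have q2 : Measurable fun y : B → J → Ω => ∏ b, g (y b) :=
      Finset.measurable_prod _ fun b _ => hgm.comp (measurable_pi_apply b)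
    unfold bipDensity
    rw [pi_wd hfm hf0 hfC, pi_wd hgm hg0 hgC, integral_wd q1
      (fun x => prod_nonneg fun _ _ => hf0 _)]
    refine integral_congr_ae (Filter.Eventually.of_forall fun x => ?_)
    simp only
    rw [integral_wd q2 (fun x => prod_nonneg fun _ _ => hg0 _), ← integral_const_mul]
    refine integral_congr_ae (Filter.Eventually.of_forall fun y => ?_)
    simp only
    ring
  rw [e1, e2]
  exact key

end Vale.Agent.P050.R2.H466
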