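import Vale.Agent.P050.R2.H466.Cover

/-!
Products of log-supermodular factors; the cover inequality for bipartite graphs.
-/

namespace Vale.Agent.P050.R2.H466

open Finset

/-- the hypotheses of the cover inequality -/
structure Adm {N : Type*} {K : ℕ} (F : (N → Fin K → Bool) → ℝ) (f : (N → Bool) → ℝ) : Prop where
  posF : ∀ a, 0 ≤ F a
  posf : ∀ x, 0 ≤ f x
  lsmF : LSM F
  lsmf : LSM f
  dom : Dom F f

variable {N : Type*} {K : ℕ}

theorem LSM.mul {α : Type*} [Lattice α] {f g : α → ℝ} (hf0 : ∀ a, 0 ≤ f a) (hg0 : ∀ a, 0 ≤ g a)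
    (hf : LSM f) (hg : LSM g) : LSM (fun a => f a * g a) := by
  intro a b
  calc f a * g a * (f b * g b) = (f a * f b) * (g a * g b) := by ring
    _ ≤ (f (a ⊓ b) * f (a ⊔ b)) * (g (a ⊓ b) * g (a ⊔ b)) :=
        mul_le_mul (hf a b) (hg a b) (mul_nonneg (hg0 _) (hg0 _))
          (mul_nonneg (hf0 _) (hf0 _))
    _ = _ := by ring

theorem LSM.prod {α ι : Type*} [Lattice α] (S : Finset ι) {f : ι → α → ℝ}
    (hf0 : ∀ i a, 0 ≤ f i a) (hf : ∀ i, LSM (f i)) : LSM (fun a => ∏ i ∈ S, f i a) := by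
  classical
  induction S using Finset.induction_on with
  | empty => intro a b; simp
  | insert i s hi ih =>
    have e : (fun a => ∏ j ∈ insert i s, f j a) = fun a => f i a * ∏ j ∈ s, f j a := by
      funext a; rw [prod_insert hi]
    rw [e]
    exact LSM.mul (hf0 i) (fun a => prod_nonneg fun _ _ => hf0 _ _) (hf i) ih

theorem Adm.one : Adm (fun _ : N → Fin K → Bool => 1) (fun _ => 1) where
  posF := fun _ => zero_le_one
  posf := fun _ => zero_le_one
  lsmF := fun _ _ => by simp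
  lsmf := fun _ _ => by simp
  dom := fun _ => by simp

theorem Adm.mul {F G : (N → Fin K → Bool) → ℝ} {f g : (N → Bool) → ℝ} (h : Adm F f)
    (h' : Adm G g) : Adm (fun a => F a * G a) (fun x => f x * g x) where
  posF := fun _ => mul_nonneg (h.posF _) (h'.posF _)
  posf := fun _ => mul_nonneg (h.posf _) (h'.posf _)
  lsmF := LSM.mul h.posF h'.posF h.lsmF h'.lsmF
  lsmf := LSM.mul h.posf h'.posf h.lsmf h'.lsmf
  dom := fun a => by
    rw [prod_mul_distrib]
    exact mul_le_mul (h.dom a) (h'.dom a) (h'.posF a) (prod_nonneg fun _ _ => h.posf _)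

theorem Adm.prod {ι : Type*} (S : Finset ι) {F : ι → (N → Fin K → Bool) → ℝ}
    {f : ι → (N → Bool) → ℝ} (h : ∀ i, Adm (F i) (f i)) :
    Adm (fun a => ∏ i ∈ S, F i a) (fun x => ∏ i ∈ S, f i x) := by
  classical
  induction S using Finset.induction_on with
  | empty => simpa using Adm.one
  | insert i s hi ih =>
    have e : (fun a => ∏ j ∈ insert i s, F j a) = fun a => F i a * ∏ j ∈ s, F j a := by
      funext a; rw [prod_insert hi]
    have e' : (fun a => ∏ j ∈ insert i s, f j a) = fun a => f i a * ∏ j ∈ s, f j a := by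
      funext a; rw [prod_insert hi]
    rw [e, e']
    exact (h i).mul ih

/-- one factor -/
theorem Adm.factor {J : Type*} {ψ : (J → Bool) → ℝ} (h0 : ∀ x, 0 ≤ ψ x) (h : LSM ψ)
    (ρ : J → N) (σ : J → Equiv.Perm (Fin K)) :
    Adm (fun a => ∏ c : Fin K, ψ fun j => a (ρ j) (σ j c)) (fun x => ψ fun j => x (ρ j)) where
  posF := fun _ => prod_nonneg fun _ _ => h0 _
  posf := fun _ => h0 _
  lsmF := LSM.prod univ (f := fun (c : Fin K) (a : N → Fin K → Bool) =>
      ψ fun j => a (ρ j) (σ j c)) (fun _ _ => h0 _)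
    fun c a b => h (fun j => a (ρ j) (σ j c)) (fun j => b (ρ j) (σ j c))
  lsmf := fun x y => h (fun j => x (ρ j)) (fun j => y (ρ j))
  dom := by
    intro a
    have h1 := sorted_prod h0 h (univ : Finset (Fin K)) (fun c j => a (ρ j) (σ j c))
    refine h1.trans (le_of_eq ?_)
    rw [card_univ, Fintype.card_fin,
      ← Fin.prod_univ_eq_prod_range (fun q => ψ (lev (fun j =>
        (univ.filter fun c => a (ρ j) (σ j c) = true).card) q)) K]
    refine prod_congr rfl fun t _ => ?_
    congr 1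
    funext j
    unfold lev ones
    refine decide_eq_decide.2 ?_
    dsimp only
    have : (univ.filter fun c => a (ρ j) (σ j c) = true).card =
        (univ.filter fun w => a (ρ j) w = true).card := by
      refine card_bij (fun c _ => σ j c) ?_ ?_ ?_
      · intro c hc
        simpa using hc
      · intro c _ c' _ hcc
        exact (σ j).injective hcc
      · intro w hw
        exact ⟨(σ j).symm w, by simpa using hw, by simp⟩
    rw [this]

/-- the cover inequality for any finite set of bits -/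
theorem cover {N : Type*} [Fintype N] [DecidableEq N] {F : (N → Fin K → Bool) → ℝ}
    {f : (N → Bool) → ℝ} (h : Adm F f) : ∑ a, F a ≤ (∑ x, f x) ^ K := by
  classical
  set e := Fintype.equivFin N
  have s : ∀ {β : Type} [Fintype β] (G : (N → β) → ℝ),
      ∑ a, G a = ∑ a' : Fin (Fintype.card N) → β, G (fun n => a' (e n)) := by
    intro β _ G
    rw [← (Equiv.arrowCongr e.symm (Equiv.refl β)).sum_comp G]
    rfl
  rw [s F, s f]
  refine cover_fin K _ (fun a' => F fun n => a' (e n)) (fun x' => f fun n => x' (e n))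
    (fun _ => h.posF _) (fun _ => h.posf _) ?_ ?_ ?_
  · intro a b
    exact h.lsmF (fun n => a (e n)) (fun n => b (e n))
  · intro a b
    exact h.lsmf (fun n => a (e n)) (fun n => b (e n))
  · intro a
    exact h.dom (fun n => a (e n))

/-! ### bipartite graphs -/

/-- total weight of the labellings of a bipartite graph -/
noncomputable def ZZ {A B X Y : Type*} [Fintype A] [Fintype B] [DecidableEq A] [DecidableEq B]
    [Fintype X] [Fintype Y]
    (E : Finset (A × B)) (μ : X → ℝ) (ν : Y → ℝ) (W : X → Y → ℝ) : ℝ :=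
  ∑ x : A → X, ∑ y : B → Y, (∏ a, μ (x a)) * (∏ b, ν (y b)) * ∏ e ∈ E, W (x e.1) (y e.2)

/-- the same for the cover given by permutations `σ` -/
noncomputable def ZC {A B X Y : Type*} [Fintype A] [Fintype B] [DecidableEq A] [DecidableEq B]
    [Fintype X] [Fintype Y] (K : ℕ)
    (E : Finset (A × B)) (μ : X → ℝ) (ν : Y → ℝ) (W : X → Y → ℝ)
    (σ : A × B → Equiv.Perm (Fin K)) : ℝ :=
  ∑ x : A → Fin K → X, ∑ y : B → Fin K → Y, (∏ a, ∏ c, μ (x a c)) * (∏ b, ∏ c, ν (y b c)) *
    ∏ e ∈ E, ∏ c, W (x e.1 c) (y e.2 (σ e c))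

theorem sum_swap {C M β : Type*} [Fintype C] [DecidableEq C] [Fintype M] [DecidableEq M]
    [Fintype β] {K : ℕ} (G : (C → Fin K → M → β) → ℝ) :
    ∑ x, G x = ∑ x : C → M → Fin K → β, G (fun c k m => x c m k) := by
  rw [← (Equiv.piCongrRight fun _ : C => Equiv.piComm fun (_ : M) (_ : Fin K) => β).sum_comp G]
  rfl

variable {A B I I' : Type*} [Fintype A] [Fintype B] [DecidableEq A] [DecidableEq B]
  [Fintype I] [Fintype I'] [DecidableEq I] [DecidableEq I']

theorem cover_bip {μ : (I → Bool) → ℝ} {ν : (I' → Bool) → ℝ} {W : (I → Bool) → (I' → Bool) → ℝ}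
    (hμ0 : ∀ x, 0 ≤ μ x) (hν0 : ∀ y, 0 ≤ ν y) (hW0 : ∀ x y, 0 ≤ W x y) (hμ : LSM μ) (hν : LSM ν)
    (hW : ∀ x y x' y', W x y * W x' y' ≤ W (x ⊓ x') (y ⊓ y') * W (x ⊔ x') (y ⊔ y'))
    (E : Finset (A × B)) (K : ℕ) (σ : A × B → Equiv.Perm (Fin K)) :
    ZC K E μ ν W σ ≤ ZZ E μ ν W ^ K := by
  classical
  -- all bits
  set F : ((A × I) ⊕ (B × I') → Fin K → Bool) → ℝ := fun z =>
    ((∏ a : A, ∏ c : Fin K, μ fun i => z (Sum.inl (a, i)) c) *
      (∏ b : B, ∏ c : Fin K, ν fun i => z (Sum.inr (b, i)) c)) *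
      ∏ e ∈ E, ∏ c : Fin K, W (fun i => z (Sum.inl (e.1, i)) c)
        (fun i => z (Sum.inr (e.2, i)) (σ e c)) with hF
  set f : ((A × I) ⊕ (B × I') → Bool) → ℝ := fun z =>
    ((∏ a : A, μ fun i => z (Sum.inl (a, i))) * (∏ b : B, ν fun i => z (Sum.inr (b, i)))) *
      ∏ e ∈ E, W (fun i => z (Sum.inl (e.1, i))) (fun i => z (Sum.inr (e.2, i))) with hf
  have hadm : Adm F f := by
    refine Adm.mul (Adm.mul ?_ ?_) ?_
    · exact Adm.prod univ fun a =>
        Adm.factor hμ0 hμ (fun i => Sum.inl (a, i)) (fun _ => Equiv.refl _)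
    · exact Adm.prod univ fun b =>
        Adm.factor hν0 hν (fun i => Sum.inr (b, i)) (fun _ => Equiv.refl _)
    · refine Adm.prod E fun e => ?_
      exact Adm.factor (J := I ⊕ I')
        (ψ := fun z => W (fun i => z (Sum.inl i)) (fun i => z (Sum.inr i)))
        (fun _ => hW0 _ _) (fun z z' => hW _ _ _ _)
        (Sum.elim (fun i => Sum.inl (e.1, i)) (fun i => Sum.inr (e.2, i)))
        (Sum.elim (fun _ => Equiv.refl _) (fun _ => σ e))
  have h1 := cover hadm
  -- regrouping
  have s : ∀ {β : Type} [Fintype β] (G : ((A × I) ⊕ (B × I') → β) → ℝ),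
      ∑ z, G z = ∑ x : A → I → β, ∑ y : B → I' → β,
        G (Sum.elim (fun p => x p.1 p.2) (fun p => y p.1 p.2)) := by
    intro β _ G
    rw [← (Equiv.sumArrowEquivProdArrow (A × I) (B × I') β).symm.sum_comp G,
      Fintype.sum_prod_type, ← (Equiv.curry A I β).symm.sum_comp]
    refine sum_congr rfl fun x _ => ?_
    rw [← (Equiv.curry B I' β).symm.sum_comp]
    rfl
  have e1 : ZZ E μ ν W = ∑ z, f z := by
    rw [s f]
    unfold ZZ
    exact sum_congr rfl fun x _ => sum_congr rfl fun y _ => rfl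
  have e2 : ZC K E μ ν W σ = ∑ z, F z := by
    rw [s F]
    unfold ZC
    rw [sum_swap]
    refine sum_congr rfl fun x _ => ?_
    rw [sum_swap]
    exact sum_congr rfl fun y _ => rfl
  rw [e1, e2]
  exact h1

end Vale.Agent.P050.R2.H466
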