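import Vale.Agent.P050.R2.H466.Meas
import Vale.Agent.P050.H753.Comb

/-!
Symmetric log-supermodular kernels and bipartite graphs.
-/

namespace Vale.Agent.P050.R2.H466

open Finset Function MeasureTheory Vale.Agent.P050 Vale.Agent.P050.H392 Vale.Agent.P050.H753

/-- one-sided and two-sided densities agree when all edges are oriented from one part to the other
one -/
theorem dens_eq_bip {V X : Type*} [Fintype V] [DecidableEq V] [MeasurableSpace X]
    (μ : Measure X) [IsProbabilityMeasure μ] {W : X → X → ℝ} {C : ℝ}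
    (hW : Measurable (uncurry W)) (h0 : ∀ x y, 0 ≤ W x y) (hC : ∀ x y, W x y ≤ C)
    {E : Finset (V × V)} (hE : Oriented E) : dens μ E W = bipDensity μ μ E W := by
  classical
  set P : V → Prop := fun v => ∃ e ∈ E, e.1 = v with hP
  set φ : V → V ⊕ V := fun v => if P v then Sum.inl v else Sum.inr v with hφ
  have hinj : Injective φ := by
    intro v v' h
    simp only [hφ] at h
    split_ifs at h with h1 h2 h2
    · exact Sum.inl_injective h
    · exact Sum.inr_injective h
  have h1 := mp_comp_inj hinj (fun _ : V ⊕ V => μ)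
  have h2 := measurePreserving_sumPiEquivProdPi_symm (X := fun _ : V ⊕ V => X)
    (fun _ : V ⊕ V => μ)
  have p1 : ∀ v : V, Measurable fun z : V → X => z v := fun v => measurable_pi_apply v
  have p2 : ∀ v : V, Measurable fun q : (V → X) × (V → X) => q.1 v := fun v =>
    (p1 v).comp measurable_fst
  have p3 : ∀ v : V, Measurable fun q : (V → X) × (V → X) => q.2 v := fun v =>
    (p1 v).comp measurable_snd
  have q0 : ∀ e : V × V, Measurable fun z : V → X => W (z e.1) (z e.2) := fun e =>
    hW.comp ((p1 e.1).prodMk (p1 e.2))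
  have hG : Measurable fun z : V → X => ∏ e ∈ E, W (z e.1) (z e.2) :=
    Finset.measurable_prod _ fun e _ => q0 e
  have h3 := mp_integral (h1.comp h2) hG
  have h4 : ∀ q : (V → X) × (V → X), ∏ e ∈ E,
      W (((fun (z : V ⊕ V → X) (v : V) => z (φ v)) ∘
          (MeasurableEquiv.sumPiEquivProdPi fun _ : V ⊕ V => X).symm) q e.1)
        (((fun (z : V ⊕ V → X) (v : V) => z (φ v)) ∘
          (MeasurableEquiv.sumPiEquivProdPi fun _ : V ⊕ V => X).symm) q e.2) =
      ∏ e ∈ E, W (q.1 e.1) (q.2 e.2) := by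
    intro q
    refine prod_congr rfl fun e he => ?_
    have h5 : φ e.1 = Sum.inl e.1 := if_pos ⟨e, he, rfl⟩
    have h6 : φ e.2 = Sum.inr e.2 := if_neg fun ⟨e', he', h⟩ => hE e' he' e he h
    simp only [comp_apply, h5, h6]
    rfl
  simp only [h4] at h3
  unfold H392.dens bipDensity
  rw [← h3, integral_prod]
  have q3 : ∀ e : V × V, Measurable fun q : (V → X) × (V → X) => W (q.1 e.1) (q.2 e.2) :=
    fun e => hW.comp ((p2 e.1).prodMk (p3 e.2))
  refine integrable_of_abs (Finset.measurable_prod _ fun e _ => q3 e) (c := C ^ E.card)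
    fun q => ?_
  have h7 := prod_le_pow E (f := fun e => W (q.1 e.1) (q.2 e.2)) (fun _ => h0 _ _)
    fun _ => hC _ _
  rw [abs_of_nonneg h7.1]
  exact h7.2

/-- **symmetric kernels** -/
theorem meas_sym {V I Ω : Type} [Fintype V] [DecidableEq V] [Fintype I] [MeasurableSpace Ω]
    (H : SimpleGraph V) [DecidableRel H.Adj] (hH : H.IsBipartite) {r s : I → Ω → ℝ}
    {μ : Measure (I → Ω)} [IsProbabilityMeasure μ] (hμ : LogSuperMeasure r μ)
    (hμ' : LogSuperMeasure s μ) {W : (I → Ω) → (I → Ω) → ℝ} (hs : ∀ x y, W x y = W y x) {C : ℝ}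
    (hWm : Measurable (uncurry W)) (hW0 : ∀ x y, 0 ≤ W x y) (hWC : ∀ x y, W x y ≤ C)
    (hW : LogSuperKernel r s W) :
    (∫ x, ∫ y, W x y ∂μ ∂μ) ^ H.edgeFinset.card ≤ kernelDensity μ H W hs := by
  classical
  obtain ⟨o, ho, hor⟩ := exists_level H hH
  rw [density_eq μ H W hs ho, ← card_orient H ho, dens_eq_bip μ hWm hW0 hWC hor]
  exact meas_bip hμ hμ' hWm hW0 hWC hW _

end Vale.Agent.P050.R2.H466
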