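import Vale.Agent.P050.R2.H466.Sym
import Vale.Agent.P050.Ultra.Join

/-!
Bipartite target graphs whose adjacency is closed under meets and joins.
-/

namespace Vale.Agent.P050.R2.H466

open Finset Function MeasureTheory Vale.Agent.P050 Vale.Agent.P050.H392 Vale.Agent.P050.H753
  Vale.Agent.P050.Ultra

theorem lattice_good {L M : Type} [DistribLattice L] [Fintype L] [DistribLattice M] [Fintype M]
    {μ : L → ℝ} {ν : M → ℝ} {W : L → M → ℝ}
    (hμ0 : ∀ x, 0 ≤ μ x) (hν0 : ∀ y, 0 ≤ ν y) (hW0 : ∀ x y, 0 ≤ W x y)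
    (hμ : LSM μ) (hν : LSM ν)
    (hW : ∀ x y x' y', W x y * W x' y' ≤ W (x ⊓ x') (y ⊓ y') * W (x ⊔ x') (y ⊔ y'))
    (hμ1 : ∑ x, μ x = 1) (hν1 : ∑ y, ν y = 1) : BGood μ ν W := by
  intro A B _ _ _ _ E
  exact lattice_bip hμ0 hν0 hW0 hμ hν hW hμ1 hν1 E

theorem good_of_mean_zero {X Y : Type} [Fintype X] [Fintype Y] {m : X → ℝ} {n : Y → ℝ}
    {W : X → Y → ℝ} (hm : ∀ x, 0 ≤ m x) (hn : ∀ y, 0 ≤ n y) (hW : ∀ x y, 0 ≤ W x y)
    (hm1 : ∑ x, m x = 1) (hn1 : ∑ y, n y = 1) (h : mean m n W = 0) : BGood m n W := by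
  intro A B _ _ _ _ E
  rcases E.eq_empty_or_nonempty with rfl | hE
  · have h1 : bip m n (∅ : Finset (A × B)) W = 1 := by
      have := ZZ_empty (A := A) (B := B) m n W
      rw [hm1, hn1, one_pow, one_pow, one_mul] at this
      exact this
    rw [h1]
    simp
  · rw [h, zero_pow hE.card_pos.ne']
    exact sum_nonneg fun x _ => sum_nonneg fun y _ => mul_nonneg (mul_nonneg
      (prod_nonneg fun _ _ => hm _) (prod_nonneg fun _ _ => hn _)) (prod_nonneg fun _ _ => hW _ _)

section

variable {L M : Type} [DistribLattice L] [DistribLattice M]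

open Classical in
/-- the symmetric kernel on `L ⊕ M` given by a relation between `L` and `M` -/
noncomputable def ker2 (R : Set (L × M)) : L ⊕ M → L ⊕ M → ℝ
  | Sum.inl x, Sum.inr y => if (x, y) ∈ R then 1 else 0
  | Sum.inr y, Sum.inl x => if (x, y) ∈ R then 1 else 0
  | Sum.inl _, Sum.inl _ => 0
  | Sum.inr _, Sum.inr _ => 0

omit [DistribLattice L] [DistribLattice M] in
theorem ker2_nonneg (R : Set (L × M)) (u v : L ⊕ M) : 0 ≤ ker2 R u v := by
  rcases u with x | y <;> rcases v with x' | y' <;> simp only [ker2] <;> (try split_ifs) <;>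
    norm_num

variable [Fintype L] [Fintype M]

theorem ker2_good {R : Set (L × M)} (hR : ∀ p ∈ R, ∀ q ∈ R, p ⊓ q ∈ R ∧ p ⊔ q ∈ R)
    {w : L ⊕ M → ℝ} (hw0 : ∀ u, 0 ≤ w u) (hw1 : ∑ u, w u = 1)
    (hL : LSM fun x : L => w (Sum.inl x)) (hM : LSM fun y : M => w (Sum.inr y)) :
    BGood w w (ker2 R) := by
  classical
  set a : ℝ := ∑ x : L, w (Sum.inl x) with ha
  set b : ℝ := ∑ y : M, w (Sum.inr y) with hb
  have ha0 : 0 ≤ a := sum_nonneg fun _ _ => hw0 _
  have hb0 : 0 ≤ b := sum_nonneg fun _ _ => hw0 _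
  have hmean : a = 0 ∨ b = 0 → mean w w (ker2 R) = 0 := by
    intro h
    refine sum_eq_zero fun u _ => sum_eq_zero fun v _ => ?_
    have hz : ∀ x y, w (Sum.inl x) * w (Sum.inr y) = 0 := by
      intro x y
      rcases h with h | h
      · rw [(sum_eq_zero_iff_of_nonneg fun _ _ => hw0 _).1 h x (mem_univ x), zero_mul]
      · rw [(sum_eq_zero_iff_of_nonneg fun _ _ => hw0 _).1 h y (mem_univ y), mul_zero]
    rcases u with x | y <;> rcases v with x' | y' <;> simp only [ker2, mul_zero]
    · rw [hz, zero_mul]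
    · rw [mul_comm (w (Sum.inr y)), hz, zero_mul]
  rcases ha0.eq_or_lt with ha' | ha'
  · exact good_of_mean_zero hw0 hw0 (ker2_nonneg R) hw1 hw1 (hmean (Or.inl ha'.symm))
  rcases hb0.eq_or_lt with hb' | hb'
  · exact good_of_mean_zero hw0 hw0 (ker2_nonneg R) hw1 hw1 (hmean (Or.inr hb'.symm))
  -- the two parts
  set RL : Finset (L ⊕ M) := univ.image Sum.inl with hRL
  set RM : Finset (L ⊕ M) := univ.image Sum.inr with hRM
  have hc : RLᶜ = RM := by
    ext u
    rcases u with x | y <;> simp [hRL, hRM]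
  have hc' : RMᶜ = RL := by
    ext u
    rcases u with x | y <;> simp [hRL, hRM]
  have sL : ∑ u ∈ RL, w u = a := sum_image fun _ _ _ _ h => Sum.inl_injective h
  have sM : ∑ u ∈ RM, w u = b := sum_image fun _ _ _ _ h => Sum.inr_injective h
  have cL : cond w RL = push Sum.inl fun x : L => w (Sum.inl x) / a := by
    funext u
    unfold Ultra.cond Ultra.push
    rw [sL]
    rcases u with x | y
    · rw [if_pos (by simp [hRL])]
      have : (univ.filter fun z : L => (Sum.inl z : L ⊕ M) = Sum.inl x) = {x} := by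
        ext z; simp
      rw [this, sum_singleton]
    · rw [if_neg (by simp [hRL])]
      simp
  have cM : cond w RM = push Sum.inr fun y : M => w (Sum.inr y) / b := by
    funext u
    unfold Ultra.cond Ultra.push
    rw [sM]
    rcases u with x | y
    · rw [if_neg (by simp [hRM])]
      simp
    · rw [if_pos (by simp [hRM])]
      have : (univ.filter fun z : M => (Sum.inr z : L ⊕ M) = Sum.inr y) = {y} := by
        ext z; simp
      rw [this, sum_singleton]
  have lL : LSM fun x : L => w (Sum.inl x) / a := by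
    intro x y
    have := hL x y
    rw [div_mul_div_comm, div_mul_div_comm]
    gcongr
  have lM : LSM fun y : M => w (Sum.inr y) / b := by
    intro x y
    have := hM x y
    rw [div_mul_div_comm, div_mul_div_comm]
    gcongr
  have oL : ∑ x : L, w (Sum.inl x) / a = 1 := by rw [← sum_div, div_self ha'.ne']
  have oM : ∑ y : M, w (Sum.inr y) / b = 1 := by rw [← sum_div, div_self hb'.ne']
  have g1 : BGood (cond w RL) (cond w RM) (ker2 R) := by
    rw [cL, cM]
    refine BGood.push_map ?_
    refine lattice_good (fun _ => div_nonneg (hw0 _) ha0) (fun _ => div_nonneg (hw0 _) hb0)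
      (fun _ _ => ker2_nonneg R _ _) lL lM ?_ oL oM
    intro x y x' y'
    by_cases h1 : (x, y) ∈ R
    · by_cases h2 : (x', y') ∈ R
      · have h3 : (x ⊓ x', y ⊓ y') ∈ R := (hR _ h1 _ h2).1
        have h4 : (x ⊔ x', y ⊔ y') ∈ R := (hR _ h1 _ h2).2
        simp only [ker2, h1, h2, h3, h4, if_true, le_refl]
      · have : ker2 R (Sum.inl x') (Sum.inr y') = 0 := by simp only [ker2, h2, if_false]
        rw [this, mul_zero]
        exact mul_nonneg (ker2_nonneg R _ _) (ker2_nonneg R _ _)
    · have : ker2 R (Sum.inl x) (Sum.inr y) = 0 := by simp only [ker2, h1, if_false]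
      rw [this, zero_mul]
      exact mul_nonneg (ker2_nonneg R _ _) (ker2_nonneg R _ _)
  have g2 : BGood (cond w RM) (cond w RL) (ker2 R) := by
    rw [cL, cM]
    refine BGood.push_map ?_
    refine lattice_good (fun _ => div_nonneg (hw0 _) hb0) (fun _ => div_nonneg (hw0 _) ha0)
      (fun _ _ => ker2_nonneg R _ _) lM lL ?_ oM oL
    intro y x y' x'
    by_cases h1 : (x, y) ∈ R
    · by_cases h2 : (x', y') ∈ R
      · have h3 : (x ⊓ x', y ⊓ y') ∈ R := (hR _ h1 _ h2).1
        have h4 : (x ⊔ x', y ⊔ y') ∈ R := (hR _ h1 _ h2).2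
        simp only [ker2, h1, h2, h3, h4, if_true, le_refl]
      · have : ker2 R (Sum.inr y') (Sum.inl x') = 0 := by simp only [ker2, h2, if_false]
        rw [this, mul_zero]
        exact mul_nonneg (ker2_nonneg R _ _) (ker2_nonneg R _ _)
    · have : ker2 R (Sum.inr y) (Sum.inl x) = 0 := by simp only [ker2, h1, if_false]
      rw [this, zero_mul]
      exact mul_nonneg (ker2_nonneg R _ _) (ker2_nonneg R _ _)
  refine blocks_good (R := RL) (S := RM) hw0 hw1 hw0 hw1 (ker2_nonneg R) ?_ ?_ ?_ ?_ (b := 0)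
    (b' := 0) ?_ ?_ g1 ?_
  · rw [sL]; exact ha'
  · rw [hc, sM]; exact hb'
  · rw [sM]; exact hb'
  · rw [hc', sL]; exact ha'
  · intro u hu v hv
    rcases u with x | y
    · rcases v with x' | y'
      · rfl
      · exact absurd (show Sum.inr y' ∈ RM by simp [hRM]) hv
    · exact absurd hu (by simp [hRL])
  · intro u hu v hv
    rcases u with x | y
    · exact absurd (show Sum.inl x ∈ RL by simp [hRL]) hu
    · rcases v with x' | y'
      · exact absurd hv (by simp [hRM])
      · rfl
  · rw [hc, hc']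
    exact g2

end

/-- **bipartite target graphs**: the vertices are labelled by elements of two finite distributive
lattices, adjacency is given by a sublattice of the product, and the numbers of vertices with a
given label are log-supermodular -/
theorem against_lattice {U L M : Type} [Finite U] [Nonempty U] [DistribLattice L] [Finite L]
    [DistribLattice M] [Finite M] (G : SimpleGraph U) (c : U → L ⊕ M) (R : Sublattice (L × M))
    (hG : ∀ u v, G.Adj u v ↔ ∃ p ∈ R, (c u = Sum.inl p.1 ∧ c v = Sum.inr p.2) ∨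
      (c v = Sum.inl p.1 ∧ c u = Sum.inr p.2))
    (hL : ∀ x x' : L, Nat.card {u // c u = Sum.inl x} * Nat.card {u // c u = Sum.inl x'} ≤
      Nat.card {u // c u = Sum.inl (x ⊓ x')} * Nat.card {u // c u = Sum.inl (x ⊔ x')})
    (hM : ∀ y y' : M, Nat.card {u // c u = Sum.inr y} * Nat.card {u // c u = Sum.inr y'} ≤
      Nat.card {u // c u = Sum.inr (y ⊓ y')} * Nat.card {u // c u = Sum.inr (y ⊔ y')}) :
    SidorenkoAgainst G := by
  classical
  have := Fintype.ofFinite U
  have := Fintype.ofFinite L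
  have := Fintype.ofFinite M
  refine against_of_good ?_
  have hadj : adjm G = fun u v => ker2 (R : Set (L × M)) (c u) (c v) := by
    funext u v
    unfold adjm
    by_cases h : G.Adj u v
    · rw [if_pos h]
      obtain ⟨p, hp, ⟨h1, h2⟩ | ⟨h1, h2⟩⟩ := (hG u v).1 h
      · rw [h1, h2]
        simp only [ker2]
        rw [if_pos (show (p.1, p.2) ∈ (R : Set (L × M)) from hp)]
      · rw [h1, h2]
        simp only [ker2]
        rw [if_pos (show (p.1, p.2) ∈ (R : Set (L × M)) from hp)]
    · rw [if_neg h]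
      rw [hG] at h
      push Not at h
      rcases hu : c u with x | y <;> rcases hv : c v with x' | y' <;> simp only [ker2]
      · rw [if_neg fun hp => ?_]
        exact (h (x, y') hp).1 hu hv
      · rw [if_neg fun hp => ?_]
        exact (h (x', y) hp).2 hv hu
  have hw : ∀ t, Ultra.push c (Ultra.unif U) t = (Nat.card {u // c u = t} : ℝ) / Fintype.card U := by
    intro t
    unfold Ultra.push Ultra.unif
    rw [sum_const, nsmul_eq_mul, Nat.card_eq_fintype_card, Fintype.card_subtype]
    ring
  have hU : (0 : ℝ) < Fintype.card U := by exact_mod_cast Fintype.card_pos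
  have hkey : BGood (Ultra.push c (Ultra.unif U)) (Ultra.push c (Ultra.unif U)) (ker2 (R : Set (L × M))) := by
    refine ker2_good (fun p hp q hq => ⟨R.infClosed hp hq, R.supClosed hp hq⟩) (fun t => ?_) ?_
      ?_ ?_
    · rw [hw]; positivity
    · have := sum_fiberwise (univ : Finset U) c (Ultra.unif U)
      rw [Ultra.unif_sum] at this
      exact this
    · intro x x'
      simp only [hw]
      rw [div_mul_div_comm, div_mul_div_comm]
      gcongr ?_ / _
      exact_mod_cast hL x x'
    · intro x x'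
      simp only [hw]
      rw [div_mul_div_comm, div_mul_div_comm]
      gcongr ?_ / _
      exact_mod_cast hM x x'
  intro A B _ _ _ _ E
  have h := hkey A B E
  rw [mean_eq_bip, bip_push_map, bip_push_map, ← mean_eq_bip] at h
  rw [hadj]
  exact h

end Vale.Agent.P050.R2.H466
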