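import Vale.Agent.P050.R2.H466.Model

/-!
The cover inequality implies the Sidorenko inequality: pigeonhole over types.
-/

namespace Vale.Agent.P050.R2.H466

open Finset

/-- growth comparison -/
theorem le_of_pow_le {r z : ℝ} (hr : 0 ≤ r) (hz : 0 ≤ z) (d : ℕ)
    (h : ∀ K : ℕ, r ^ K ≤ ((K : ℝ) + 1) ^ d * z ^ K) : r ≤ z := by
  by_contra hlt
  push Not at hlt
  rcases hz.eq_or_lt with h0 | h0
  · have := h 1
    rw [← h0] at this
    simp at this
    linarith
  · have h1 : 1 < r / z := (one_lt_div h0).2 hlt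
    have ht := tendsto_pow_const_div_const_pow_of_one_lt d h1
    have ht' := (ht.comp (Filter.tendsto_add_atTop_nat 1)).eventually
      (gt_mem_nhds (show (0 : ℝ) < z / r from div_pos h0 (h0.trans hlt)))
    obtain ⟨K, hK⟩ := ht'.exists
    have hr0 : 0 < r := h0.trans hlt
    have h2 : 0 < r / z := div_pos hr0 h0
    have h3 := h K
    simp only [Function.comp] at hK
    rw [div_lt_iff₀ (by positivity)] at hK
    push_cast at hK
    rw [pow_succ, ← mul_assoc] at hK
    have h4 : (z / r) * ((r / z) ^ K * (r / z)) = (r / z) ^ K := by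
      have : (z / r) * (r / z) = 1 := by
        have : r ≠ 0 := by rintro rfl; linarith
        field_simp
      calc (z / r) * ((r / z) ^ K * (r / z)) = (r / z) ^ K * ((z / r) * (r / z)) := by ring
        _ = _ := by rw [this, mul_one]
    have h5 : ((K : ℝ) + 1) ^ d < (r / z) ^ K := by
      calc ((K : ℝ) + 1) ^ d < z / r * (r / z) ^ K * (r / z) := hK
        _ = (z / r) * ((r / z) ^ K * (r / z)) := by rw [mul_assoc]
        _ = _ := h4
    rw [div_pow, lt_div_iff₀ (by positivity)] at h5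
    linarith

variable {X Y : Type*} [Fintype X] [Fintype Y] [DecidableEq X] [DecidableEq Y]

/-- the type of a word -/
def tp {K : ℕ} (x : Fin K → X) : X → Fin (K + 1) := fun s =>
  ⟨(univ.filter fun c => x c = s).card, Nat.lt_succ_of_le ((card_filter_le _ _).trans (by simp))⟩

omit [Fintype X] in
theorem exists_perm {K : ℕ} {x x' : Fin K → X} (h : tp x = tp x') :
    ∃ π : Equiv.Perm (Fin K), x' = x ∘ π := by
  have hc : ∀ s, Fintype.card {c // x' c = s} = Fintype.card {c // x c = s} := by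
    intro s
    rw [Fintype.card_subtype, Fintype.card_subtype]
    have := congrArg Fin.val (congrFun h s)
    exact this.symm
  refine ⟨(Equiv.sigmaFiberEquiv x').symm.trans
    ((Equiv.sigmaCongrRight fun s => Fintype.equivOfCardEq (hc s)).trans
      (Equiv.sigmaFiberEquiv x)), ?_⟩
  funext c
  have := (Fintype.equivOfCardEq (hc (x' c)) ⟨c, rfl⟩).2
  simp only [Function.comp, Equiv.trans_apply]
  exact this.symm

/-- the symmetrised kernel on words -/
noncomputable def VV {K : ℕ} (W : X → Y → ℝ) (x : Fin K → X) (y : Fin K → Y) : ℝ :=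
  ∑ τ : Equiv.Perm (Fin K), ∏ c, W (x c) (y (τ c))

omit [Fintype X] [Fintype Y] [DecidableEq X] [DecidableEq Y] in
theorem VV_left {K : ℕ} (W : X → Y → ℝ) (x : Fin K → X) (y : Fin K → Y)
    (π : Equiv.Perm (Fin K)) : VV W (x ∘ π) y = VV W x y := by
  unfold VV
  refine (Equiv.sum_comp (Equiv.mulRight π)
    (fun τ : Equiv.Perm (Fin K) => ∏ c, W ((x ∘ π) c) (y (τ c)))).symm.trans ?_
  refine sum_congr rfl fun τ _ => ?_
  exact Fintype.prod_equiv π _ (fun c => W (x c) (y (τ c))) fun c => rfl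

omit [Fintype X] [Fintype Y] [DecidableEq X] [DecidableEq Y] in
theorem VV_right {K : ℕ} (W : X → Y → ℝ) (x : Fin K → X) (y : Fin K → Y)
    (π : Equiv.Perm (Fin K)) : VV W x (y ∘ π) = VV W x y := by
  unfold VV
  exact Equiv.sum_comp (Equiv.mulLeft π)
    (fun τ : Equiv.Perm (Fin K) => ∏ c, W (x c) (y (τ c)))

omit [Fintype X] [Fintype Y] in
theorem VV_tp {K : ℕ} (W : X → Y → ℝ) {x x' : Fin K → X} {y y' : Fin K → Y}
    (hx : tp x = tp x') (hy : tp y = tp y') : VV W x y = VV W x' y' := by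
  obtain ⟨π, rfl⟩ := exists_perm hx
  obtain ⟨π', rfl⟩ := exists_perm hy
  rw [VV_left, VV_right]

omit [Fintype X] [Fintype Y] [DecidableEq X] [DecidableEq Y] in
theorem VV_nonneg {K : ℕ} {W : X → Y → ℝ} (hW : ∀ x y, 0 ≤ W x y) (x : Fin K → X)
    (y : Fin K → Y) : 0 ≤ VV W x y :=
  sum_nonneg fun _ _ => prod_nonneg fun _ _ => hW _ _

omit [DecidableEq X] [DecidableEq Y] in
theorem sum_VV {K : ℕ} (μ : X → ℝ) (ν : Y → ℝ) (W : X → Y → ℝ) :
    ∑ x : Fin K → X, ∑ y : Fin K → Y, (∏ c, μ (x c)) * (∏ c, ν (y c)) * VV W x y =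
      (K.factorial : ℝ) * (∑ s, ∑ t, μ s * ν t * W s t) ^ K := by
  classical
  have h1 : ∀ τ : Equiv.Perm (Fin K), ∑ x : Fin K → X, ∑ y : Fin K → Y,
      (∏ c, μ (x c)) * (∏ c, ν (y c)) * ∏ c, W (x c) (y (τ c)) =
      (∑ s, ∑ t, μ s * ν t * W s t) ^ K := by
    intro τ
    have e1 : ∀ x : Fin K → X, ∑ y : Fin K → Y,
        (∏ c, μ (x c)) * (∏ c, ν (y c)) * ∏ c, W (x c) (y (τ c)) =
        ∏ c, ∑ t, μ (x c) * ν t * W (x c) t := by
      intro x
      rw [prod_univ_sum, Fintype.piFinset_univ,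
        ← (Equiv.arrowCongr τ (Equiv.refl Y)).sum_comp]
      refine sum_congr rfl fun y _ => ?_
      rw [prod_mul_distrib, prod_mul_distrib]
      have e2 : ∏ c, ν ((Equiv.arrowCongr τ (Equiv.refl Y)) y c) = ∏ c, ν (y c) := by
        rw [← Equiv.prod_comp τ]
        refine prod_congr rfl fun c _ => ?_
        simp [Equiv.arrowCongr]
      rw [e2]
      congr 1
      refine prod_congr rfl fun c _ => ?_
      simp [Equiv.arrowCongr]
    rw [sum_congr rfl fun x _ => e1 x]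
    have e3 := prod_univ_sum (fun _ : Fin K => (univ : Finset X))
      (fun _ s => ∑ t, μ s * ν t * W s t)
    rw [Fintype.piFinset_univ] at e3
    rw [← e3, prod_const, card_univ, Fintype.card_fin]
  unfold VV
  simp only [mul_sum]
  rw [sum_congr rfl fun x _ => sum_comm, sum_comm, sum_congr rfl fun τ _ => h1 τ, sum_const,
    card_univ, Fintype.card_perm, Fintype.card_fin, nsmul_eq_mul]

section
variable {A B : Type*} [Fintype A] [Fintype B] [DecidableEq A] [DecidableEq B]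

omit [DecidableEq X] [DecidableEq Y] in
theorem sum_ZC {K : ℕ} (E : Finset (A × B)) (μ : X → ℝ) (ν : Y → ℝ) (W : X → Y → ℝ) :
    ∑ τ : E → Equiv.Perm (Fin K), ZC K E μ ν W (fun e => if h : e ∈ E then τ ⟨e, h⟩ else 1) =
      ∑ x : A → Fin K → X, ∑ y : B → Fin K → Y,
        (∏ a, ∏ c, μ (x a c)) * (∏ b, ∏ c, ν (y b c)) * ∏ e ∈ E, VV W (x e.1) (y e.2) := by
  classical
  unfold ZC
  rw [sum_comm]
  refine sum_congr rfl fun x _ => ?_
  rw [sum_comm]
  refine sum_congr rfl fun y _ => ?_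
  rw [← mul_sum]
  congr 1
  unfold VV
  rw [← prod_coe_sort E (fun e => ∑ τ : Equiv.Perm (Fin K), ∏ c, W (x e.1 c) (y e.2 (τ c))),
    prod_univ_sum, Fintype.piFinset_univ]
  refine sum_congr rfl fun τ _ => ?_
  rw [← prod_coe_sort E (fun e => ∏ c, W (x e.1 c) (y e.2
    ((if h : e ∈ E then τ ⟨e, h⟩ else (1 : Equiv.Perm (Fin K))) c)))]
  refine prod_congr rfl fun e _ => ?_
  rw [dif_pos e.2]

omit [DecidableEq X] [DecidableEq Y] in
theorem ZZ_nonneg {E : Finset (A × B)} {μ : X → ℝ} {ν : Y → ℝ} {W : X → Y → ℝ}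
    (hμ0 : ∀ x, 0 ≤ μ x) (hν0 : ∀ y, 0 ≤ ν y) (hW0 : ∀ x y, 0 ≤ W x y) : 0 ≤ ZZ E μ ν W :=
  sum_nonneg fun _ _ => sum_nonneg fun _ _ => mul_nonneg (mul_nonneg
    (prod_nonneg fun _ _ => hμ0 _) (prod_nonneg fun _ _ => hν0 _)) (prod_nonneg fun _ _ => hW0 _ _)

/-- the mass of the words satisfying a condition for the vertices of a set `S`, no condition for
the others -/
theorem mass_pow {C X : Type*} [Fintype C] [DecidableEq C] [Fintype X] [DecidableEq X] {K : ℕ}
    (μ : X → ℝ) (hμ1 : ∑ x, μ x = 1)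
    (S : Finset C) (T : X → Fin (K + 1)) :
    ∑ x : C → Fin K → X, ∏ a, (if a ∈ S → tp (x a) = T then ∏ c, μ (x a c) else 0) =
      (∑ x : Fin K → X, if tp x = T then ∏ c, μ (x c) else 0) ^ S.card := by
  classical
  have h := prod_univ_sum (fun _ : C => (univ : Finset (Fin K → X)))
    (fun a x => if a ∈ S → tp x = T then ∏ c, μ (x c) else 0)
  rw [Fintype.piFinset_univ] at h
  rw [← h]
  have h2 : ∀ a, ∑ x : Fin K → X, (if a ∈ S → tp x = T then ∏ c, μ (x c) else 0) =
      if a ∈ S then (∑ x : Fin K → X, if tp x = T then ∏ c, μ (x c) else 0) else 1 := by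
    intro a
    by_cases ha : a ∈ S
    · simp [ha]
    · simp only [ha, false_imp_iff, if_true, if_false]
      have h3 := prod_univ_sum (fun _ : Fin K => (univ : Finset X)) (fun _ s => μ s)
      rw [Fintype.piFinset_univ] at h3
      rw [← h3, prod_const, hμ1, one_pow]
  rw [prod_congr rfl fun a _ => h2 a, prod_ite_mem, univ_inter, prod_const]

theorem mass_le {X : Type*} [Fintype X] [DecidableEq X] {K : ℕ} (μ : X → ℝ) (hμ0 : ∀ x, 0 ≤ μ x)
    (hμ1 : ∑ x, μ x = 1) (T : X → Fin (K + 1)) :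
    0 ≤ (∑ x : Fin K → X, if tp x = T then ∏ c, μ (x c) else 0) ∧
    (∑ x : Fin K → X, if tp x = T then ∏ c, μ (x c) else 0) ≤ 1 := by
  constructor
  · refine sum_nonneg fun x _ => ?_
    split_ifs
    · exact prod_nonneg fun _ _ => hμ0 _
    · exact le_rfl
  · have h3 := prod_univ_sum (fun _ : Fin K => (univ : Finset X)) (fun _ s => μ s)
    rw [Fintype.piFinset_univ, prod_const, hμ1, one_pow] at h3
    rw [h3]
    refine sum_le_sum fun x _ => ?_
    split_ifs
    · exact le_rfl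
    · exact prod_nonneg fun _ _ => hμ0 _

/-- **lower bound for the average over all covers** -/
theorem average_lower (K : ℕ) {E : Finset (A × B)} {μ : X → ℝ} {ν : Y → ℝ} {W : X → Y → ℝ}
    (hμ0 : ∀ x, 0 ≤ μ x) (hν0 : ∀ y, 0 ≤ ν y) (hW0 : ∀ x y, 0 ≤ W x y)
    (hμ1 : ∑ x, μ x = 1) (hν1 : ∑ y, ν y = 1) :
    ((K.factorial : ℝ) * (∑ s, ∑ t, μ s * ν t * W s t) ^ K) ^ E.card ≤
      (((K : ℝ) + 1) ^ (Fintype.card X + Fintype.card Y)) ^ E.card *
        ∑ τ : E → Equiv.Perm (Fin K),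
          ZC K E μ ν W (fun e => if h : e ∈ E then τ ⟨e, h⟩ else 1) := by
  classical
  set p : ℝ := ∑ s, ∑ t, μ s * ν t * W s t with hp
  have hp0 : 0 ≤ p := sum_nonneg fun _ _ => sum_nonneg fun _ _ =>
    mul_nonneg (mul_nonneg (hμ0 _) (hν0 _)) (hW0 _ _)
  rw [sum_ZC]
  -- pigeonhole
  set SS : (X → Fin (K + 1)) × (Y → Fin (K + 1)) → ℝ := fun T =>
    ∑ x : Fin K → X, ∑ y : Fin K → Y, (if tp x = T.1 then ∏ c, μ (x c) else 0) *
      (if tp y = T.2 then ∏ c, ν (y c) else 0) * VV W x y with hSS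
  have h2 : ∑ T, SS T = (K.factorial : ℝ) * p ^ K := by
    rw [hp, ← sum_VV, Fintype.sum_prod_type]
    simp only [hSS]
    have e1 : ∀ (x : Fin K → X) (y : Fin K → Y),
        ∑ T : X → Fin (K + 1), ∑ T' : Y → Fin (K + 1), (if tp x = T then ∏ c, μ (x c) else 0) *
          (if tp y = T' then ∏ c, ν (y c) else 0) * VV W x y =
        (∏ c, μ (x c)) * (∏ c, ν (y c)) * VV W x y := by
      intro x y
      simp only [← sum_mul, ← mul_sum]
      rw [Finset.sum_ite_eq, Finset.sum_ite_eq]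
      simp
    rw [← sum_congr rfl fun x _ => sum_congr rfl fun y _ => e1 x y]
    rw [sum_congr rfl fun T _ => sum_comm]
    rw [sum_comm]
    refine sum_congr rfl fun x _ => ?_
    rw [sum_congr rfl fun T _ => sum_comm]
    rw [sum_comm]
  obtain ⟨T, hT⟩ := Finite.exists_max SS
  have h3 : (K.factorial : ℝ) * p ^ K ≤
      ((K : ℝ) + 1) ^ (Fintype.card X + Fintype.card Y) * SS T := by
    rw [← h2]
    refine (sum_le_sum fun T' _ => hT T').trans (le_of_eq ?_)
    rw [sum_const, card_univ, Fintype.card_prod, Fintype.card_fun, Fintype.card_fun,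
      Fintype.card_fin, nsmul_eq_mul]
    push_cast
    ring
  set m : ℝ := ∑ x : Fin K → X, if tp x = T.1 then ∏ c, μ (x c) else 0 with hm
  set m' : ℝ := ∑ y : Fin K → Y, if tp y = T.2 then ∏ c, ν (y c) else 0 with hm'
  obtain ⟨v, hv0, hv⟩ : ∃ v : ℝ, 0 ≤ v ∧ ∀ (x : Fin K → X) (y : Fin K → Y),
      tp x = T.1 → tp y = T.2 → VV W x y = v := by
    by_cases hne : ∃ (x : Fin K → X) (y : Fin K → Y), tp x = T.1 ∧ tp y = T.2
    · obtain ⟨x0, y0, hx0, hy0⟩ := hne
      exact ⟨VV W x0 y0, VV_nonneg hW0 _ _, fun x y hx hy =>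
        VV_tp W (hx.trans hx0.symm) (hy.trans hy0.symm)⟩
    · exact ⟨0, le_rfl, fun x y hx hy => absurd ⟨x, y, hx, hy⟩ hne⟩
  have h4 : SS T = m * m' * v := by
    simp only [hSS, hm, hm']
    rw [sum_mul_sum, sum_mul]
    refine sum_congr rfl fun x _ => ?_
    rw [sum_mul]
    refine sum_congr rfl fun y _ => ?_
    by_cases hx : tp x = T.1
    · by_cases hy : tp y = T.2
      · rw [hv x y hx hy]
      · simp [hy]
    · simp [hx]
  have hm0 := mass_le μ hμ0 hμ1 T.1
  have hm'0 := mass_le ν hν0 hν1 T.2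
  -- restriction to the types
  have h5 : m ^ (E.image Prod.fst).card * m' ^ (E.image Prod.snd).card * v ^ E.card ≤
      ∑ x : A → Fin K → X, ∑ y : B → Fin K → Y,
      (∏ a, ∏ c, μ (x a c)) * (∏ b, ∏ c, ν (y b c)) * ∏ e ∈ E, VV W (x e.1) (y e.2) := by
    rw [hm, hm', ← mass_pow μ hμ1, ← mass_pow ν hν1, sum_mul_sum, sum_mul]
    refine sum_le_sum fun x _ => ?_
    rw [sum_mul]
    refine sum_le_sum fun y _ => ?_
    by_cases hx : ∀ a ∈ E.image Prod.fst, tp (x a) = T.1
    · by_cases hy : ∀ b ∈ E.image Prod.snd, tp (y b) = T.2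
      · rw [prod_congr rfl fun a _ => if_pos (hx a), prod_congr rfl fun b _ => if_pos (hy b)]
        refine le_of_eq ?_
        congr 1
        rw [← prod_const]
        refine prod_congr rfl fun e he => ?_
        exact (hv _ _ (hx _ (mem_image_of_mem _ he)) (hy _ (mem_image_of_mem _ he))).symm
      · push Not at hy
        obtain ⟨b, hb, hb'⟩ := hy
        rw [prod_eq_zero (i := b) (mem_univ b) (f := fun b =>
          if b ∈ E.image Prod.snd → tp (y b) = T.2 then ∏ c, ν (y b c) else 0)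
          (if_neg fun h => hb' (h hb))]
        rw [mul_zero, zero_mul]
        exact mul_nonneg (mul_nonneg (prod_nonneg fun _ _ => prod_nonneg fun _ _ => hμ0 _)
          (prod_nonneg fun _ _ => prod_nonneg fun _ _ => hν0 _))
          (prod_nonneg fun _ _ => VV_nonneg hW0 _ _)
    · push Not at hx
      obtain ⟨a, ha, ha'⟩ := hx
      rw [prod_eq_zero (i := a) (mem_univ a) (f := fun a =>
        if a ∈ E.image Prod.fst → tp (x a) = T.1 then ∏ c, μ (x a c) else 0)
        (if_neg fun h => ha' (h ha))]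
      rw [zero_mul, zero_mul]
      exact mul_nonneg (mul_nonneg (prod_nonneg fun _ _ => prod_nonneg fun _ _ => hμ0 _)
        (prod_nonneg fun _ _ => prod_nonneg fun _ _ => hν0 _))
        (prod_nonneg fun _ _ => VV_nonneg hW0 _ _)
  have h6 : (m * m' * v) ^ E.card ≤
      m ^ (E.image Prod.fst).card * m' ^ (E.image Prod.snd).card * v ^ E.card := by
    rw [mul_pow, mul_pow]
    have k1 : m ^ E.card ≤ m ^ (E.image Prod.fst).card :=
      pow_le_pow_of_le_one hm0.1 hm0.2 card_image_le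
    have k2 : m' ^ E.card ≤ m' ^ (E.image Prod.snd).card :=
      pow_le_pow_of_le_one hm'0.1 hm'0.2 card_image_le
    exact mul_le_mul_of_nonneg_right (mul_le_mul k1 k2 (pow_nonneg hm'0.1 _)
      (pow_nonneg hm0.1 _)) (pow_nonneg hv0 _)
  calc ((K.factorial : ℝ) * p ^ K) ^ E.card
      ≤ (((K : ℝ) + 1) ^ (Fintype.card X + Fintype.card Y) * SS T) ^ E.card := by
        gcongr
    _ = (((K : ℝ) + 1) ^ (Fintype.card X + Fintype.card Y)) ^ E.card *
          (m * m' * v) ^ E.card := by rw [mul_pow, h4]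
    _ ≤ _ := by
        gcongr
        exact h6.trans h5

/-- **the cover inequality implies the Sidorenko inequality** -/
theorem sidorenko_of_cover {E : Finset (A × B)} {μ : X → ℝ} {ν : Y → ℝ} {W : X → Y → ℝ}
    (hμ0 : ∀ x, 0 ≤ μ x) (hν0 : ∀ y, 0 ≤ ν y) (hW0 : ∀ x y, 0 ≤ W x y)
    (hμ1 : ∑ x, μ x = 1) (hν1 : ∑ y, ν y = 1)
    (hc : ∀ (K : ℕ) (σ : A × B → Equiv.Perm (Fin K)), ZC K E μ ν W σ ≤ ZZ E μ ν W ^ K) :
    (∑ s, ∑ t, μ s * ν t * W s t) ^ E.card ≤ ZZ E μ ν W := by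
  classical
  set p : ℝ := ∑ s, ∑ t, μ s * ν t * W s t with hp
  have hp0 : 0 ≤ p := sum_nonneg fun _ _ => sum_nonneg fun _ _ =>
    mul_nonneg (mul_nonneg (hμ0 _) (hν0 _)) (hW0 _ _)
  have hZ0 : 0 ≤ ZZ E μ ν W := ZZ_nonneg hμ0 hν0 hW0
  refine le_of_pow_le (pow_nonneg hp0 _) hZ0 ((Fintype.card X + Fintype.card Y) * E.card)
    fun K => ?_
  have hK : (0 : ℝ) < K.factorial := by exact_mod_cast K.factorial_pos
  have h1 : ∑ τ : E → Equiv.Perm (Fin K),
      ZC K E μ ν W (fun e => if h : e ∈ E then τ ⟨e, h⟩ else 1) ≤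
      (K.factorial : ℝ) ^ E.card * ZZ E μ ν W ^ K := by
    refine (sum_le_sum fun τ _ => hc K _).trans (le_of_eq ?_)
    rw [sum_const, card_univ, Fintype.card_fun, Fintype.card_perm, Fintype.card_fin,
      Fintype.card_coe, nsmul_eq_mul]
    push_cast
    ring
  have h8 : (K.factorial : ℝ) ^ E.card * (p ^ E.card) ^ K ≤
      (K.factorial : ℝ) ^ E.card *
        (((K : ℝ) + 1) ^ ((Fintype.card X + Fintype.card Y) * E.card) * ZZ E μ ν W ^ K) := by
    calc (K.factorial : ℝ) ^ E.card * (p ^ E.card) ^ K = ((K.factorial : ℝ) * p ^ K) ^ E.card := by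
          rw [mul_pow, ← pow_mul, ← pow_mul, mul_comm K]
      _ ≤ (((K : ℝ) + 1) ^ (Fintype.card X + Fintype.card Y)) ^ E.card *
          ((K.factorial : ℝ) ^ E.card * ZZ E μ ν W ^ K) :=
        (average_lower K hμ0 hν0 hW0 hμ1 hν1).trans
          (mul_le_mul_of_nonneg_left h1 (by positivity))
      _ = _ := by rw [pow_mul]; ring
  exact le_of_mul_le_mul_left h8 (pow_pos hK _)

end

end Vale.Agent.P050.R2.H466
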